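import Vale.Agent.P095.Elem.Absorb.OpForm
import Vale.Agent.P101.UltraDefs

/-!
# P095, amenable groups: the sandwich estimates for almost commuting kernels

By contradiction in an ultrapower, where the kernel commutes exactly.
-/

open Finset Filter Topology BoundedContinuousFunction
open scoped CStarAlgebra BoundedContinuousFunction symmDiff

namespace Vale.Agent.P095.Elem.Absorb

open VAgent.P101

noncomputable section

variable {A : Type*} [CStarAlgebra A] {β : Type*}

/-- An almost commuting kernel of mean inner products. -/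
structure ApproxKernel (S : Finset β) (T : β → β → A) (top : A) (τ : ℝ) : Prop where
  comm : ∀ x ∈ S, ∀ y ∈ S, ∀ x' ∈ S, ∀ y' ∈ S, ‖T x y * T x' y' - T x' y' * T x y‖ ≤ τ
  herm : ∀ x ∈ S, ∀ y ∈ S, star (T x y) = T y x
  norm_le : ∀ x ∈ S, ∀ y ∈ S, ‖T x y‖ ≤ 1
  gram : ∀ x ∈ S, ∀ y ∈ S, ∀ z ∈ S, ∀ a b c : ℂ,
    ‖(((‖a‖ + ‖b‖ + ‖c‖) ^ 2 : ℝ) : ℂ) • (1 : A) -
    ((star a * a) • T x x + (star a * b) • T x y + (star a * c) • T x z +
      (star b * a) • T y x + (star b * b) • T y y + (star b * c) • T y z +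
      (star c * a) • T z x + (star c * b) • T z y + (star c * c) • T z z)‖ ≤
      (‖a‖ + ‖b‖ + ‖c‖) ^ 2
  diag : ∀ x ∈ S, ‖T x x * top - top‖ ≤ τ
  top_sa : star top = top
  top_le : ‖top‖ ≤ 1

/-- Evaluation of sequences. -/
def seqEval (_n : ℕ) : (ℕ →ᵇ A) →⋆ₐ[ℂ] A where
  toFun f := f _n
  map_one' := rfl
  map_mul' _ _ := rfl
  map_zero' := rfl
  map_add' _ _ := rfl
  commutes' _ := rfl
  map_star' _ := rfl

theorem mk_eq_of_tendsto {ω : Ultrafilter ℕ} {f g : ℕ →ᵇ A} {r : ℕ → ℝ}
    (hr : Tendsto r (ω : Filter ℕ) (𝓝 0)) (h : ∀ n, ‖f n - g n‖ ≤ r n) :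
    (UPow.mk f : UPow A ω) = UPow.mk g :=
  UPow.mk_eq_mk.2 (squeeze_zero (fun n => norm_nonneg _) h hr)

/-- The combination of the forms for a pair of finite sets. -/
def opComb (p : Polynomial ℝ) (I : ℕ) (T : β → β → A) (F F' : Finset β) : A :=
  opForm p I T F F - opForm p I T F F' - opForm p I T F' F + opForm p I T F' F'

theorem map_opComb {B : Type*} [CStarAlgebra B] (φ : A →⋆ₐ[ℂ] B) (p : Polynomial ℝ) (I : ℕ)
    (T : β → β → A) (F F' : Finset β) :
    φ (opComb p I T F F') = opComb p I (fun a b => φ (T a b)) F F' := by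
  simp only [opComb, map_add, map_sub, map_opForm]

theorem opComb_congr {S : Finset β} {T T' : β → β → A} (h : ∀ x ∈ S, ∀ y ∈ S, T x y = T' x y)
    (p : Polynomial ℝ) (I : ℕ) {F F' : Finset β} (hF : F ⊆ S) (hF' : F' ⊆ S) :
    opComb p I T F F' = opComb p I T' F F' := by
  simp only [opComb, opForm_congr h p I hF hF, opForm_congr h p I hF hF', opForm_congr h p I hF' hF,
    opForm_congr h p I hF' hF']

theorem norm_le_three_mul [PartialOrder A] [StarOrderedRing A] {X : A} {δ : ℝ} (hδ : 0 ≤ δ)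
    (h1 : X ≤ δ • (1 : A)) (h2 : -X ≤ δ • (1 : A)) : ‖X‖ ≤ 3 * δ := by
  have h3 : 0 ≤ X + δ • (1 : A) := by
    have := sub_nonneg.2 h2
    rwa [sub_neg_eq_add, add_comm] at this
  have h4 : X + δ • (1 : A) ≤ algebraMap ℝ A (2 * δ) := by
    rw [Algebra.algebraMap_eq_smul_one, two_mul, add_smul]
    exact add_le_add_left h1 _
  have h5 := (CStarAlgebra.norm_le_iff_le_algebraMap _ (by linarith) h3).2 h4
  have h6 : ‖δ • (1 : A)‖ ≤ δ := by
    rw [norm_smul, Real.norm_of_nonneg hδ]
    refine mul_le_of_le_one_right hδ ?_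
    rcases subsingleton_or_nontrivial A with hA | hA
    · simp [Subsingleton.elim (1 : A) 0]
    · exact le_of_eq CStarRing.norm_one
  calc ‖X‖ = ‖(X + δ • (1 : A)) - δ • (1 : A)‖ := by rw [add_sub_cancel_right]
    _ ≤ ‖X + δ • (1 : A)‖ + ‖δ • (1 : A)‖ := norm_sub_le _ _
    _ ≤ 3 * δ := by linarith

/-- The sandwich estimates hold for almost commuting kernels. -/
theorem exists_tolerance [DecidableEq β] {S F F' : Finset β} (hF : F ⊆ S) (hF' : F' ⊆ S)
    {p : Polynomial ℝ} {I : ℕ} {δ d : ℝ} (hδ : 0 ≤ δ) (hd : 0 ≤ d)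
    (H : ∀ R : β → β → ℂ, GoodOn S R → |cxForm p I R F F - 1| ≤ δ ∧
      cxForm p I R F F - 2 * cxForm p I R F F' + cxForm p I R F' F' ≤ d + δ)
    {ε : ℝ} (hε : 0 < ε) :
    ∃ τ : ℝ, 0 < τ ∧ ∀ (T : β → β → A) (top : A), ApproxKernel S T top τ →
      ‖top * (opForm p I T F F - 1) * top‖ ≤ 3 * δ + ε ∧
      ∀ w : A, ‖star w * w - top * opComb p I T F F' * top‖ ≤ τ →
        ‖star w * w‖ ≤ d + δ + ε := by
  by_contra hcon
  push Not at hcon
  have hτ : ∀ n : ℕ, (0 : ℝ) < 1 / ((n : ℝ) + 1) := fun n => by positivity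
  choose T top hK hbad using fun n : ℕ => hcon (1 / ((n : ℝ) + 1)) (hτ n)
  let ω : Ultrafilter ℕ := hyperfilter ℕ
  have hlim : Tendsto (fun n : ℕ => 1 / ((n : ℝ) + 1)) (ω : Filter ℕ) (𝓝 0) :=
    tendsto_one_div_add_atTop_nhds_zero_nat.mono_left
      (Nat.cofinite_eq_atTop ▸ hyperfilter_le_cofinite)
  classical
  let Tf : β → β → (ℕ →ᵇ A) := fun x y =>
    ofNormedAddCommGroupDiscrete (fun n => if x ∈ S ∧ y ∈ S then T n x y else 0) 1 fun n => by
      split_ifs with h
      · exact (hK n).norm_le x h.1 y h.2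
      · simp
  have hTf : ∀ n, ∀ x ∈ S, ∀ y ∈ S, Tf x y n = T n x y := fun n x hx y hy => by simp [Tf, hx, hy]
  let tf : ℕ →ᵇ A := ofNormedAddCommGroupDiscrete top 1 fun n => (hK n).top_le
  let U : β → β → UPow A ω := fun x y => UPow.mkHom (Tf x y)
  let t : UPow A ω := UPow.mkHom tf
  have hkU : OpKernel S U t := by
    refine ⟨fun x hx y hy x' hx' y' hy' => ?_, fun x hx y hy => ?_, fun x hx y hy => ?_,
      fun x hx y hy z hz a b c => ⟨(‖a‖ + ‖b‖ + ‖c‖) ^ 2, ?_⟩, fun x hx => ?_⟩
    · refine ((map_mul UPow.mkHom _ _).symm.trans ?_).trans (map_mul UPow.mkHom _ _)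
      refine mk_eq_of_tendsto hlim fun n => ?_
      simpa only [BoundedContinuousFunction.coe_mul, Pi.mul_apply, hTf n x hx y hy,
        hTf n x' hx' y' hy'] using (hK n).comm x hx y hy x' hx' y' hy'
    · refine (map_star UPow.mkHom _).symm.trans (congrArg UPow.mkHom ?_)
      ext n
      simp [hTf n x hx y hy, hTf n y hy x hx, (hK n).herm x hx y hy]
    · refine UPow.norm_le_of_eventually zero_le_one (Eventually.of_forall fun n => ?_)
      rw [hTf n x hx y hy]
      exact (hK n).norm_le x hx y hy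
    · simp only [U, ← map_smul, ← map_add, ← map_one UPow.mkHom, ← map_sub]
      refine UPow.norm_le_of_eventually (by positivity) (Eventually.of_forall fun n => ?_)
      simpa only [BoundedContinuousFunction.coe_sub, BoundedContinuousFunction.coe_add,
        BoundedContinuousFunction.coe_smul, BoundedContinuousFunction.coe_one, Pi.sub_apply,
        Pi.add_apply, Pi.one_apply, hTf n x hx x hx, hTf n x hx y hy, hTf n x hx z hz,
        hTf n y hy x hx, hTf n y hy y hy, hTf n y hy z hz, hTf n z hz x hx, hTf n z hz y hy,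
        hTf n z hz z hz] using (hK n).gram x hx y hy z hz a b c
    · refine ((map_mul UPow.mkHom _ _).symm.trans ?_)
      refine mk_eq_of_tendsto hlim fun n => ?_
      simpa [hTf n x hx x hx, tf] using (hK n).diag x hx
  have ht : star t = t := by
    refine (map_star UPow.mkHom _).symm.trans (congrArg UPow.mkHom ?_)
    ext n
    simp [tf, (hK n).top_sa]
  have htn : ‖t‖ ≤ 1 :=
    UPow.norm_le_of_eventually zero_le_one (Eventually.of_forall fun n => (hK n).top_le)
  let : PartialOrder (UPow A ω) := CStarAlgebra.spectralOrder _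
  let : StarOrderedRing (UPow A ω) := CStarAlgebra.spectralOrderedRing _
  obtain ⟨s1, s2, s3⟩ := hkU.sandwich hF hF' ht htn hδ hd H
  set X : ℕ →ᵇ A := tf * (opForm p I Tf F F - 1) * tf
  set Y : ℕ →ᵇ A := tf * opComb p I Tf F F' * tf
  have eX : (UPow.mk X : UPow A ω) = t * (opForm p I U F F - 1) * t := by
    show UPow.mkHom X = _
    simp only [X, t, map_mul, map_sub, map_one, map_opForm, U]
  have eY : (UPow.mk Y : UPow A ω) = t * opComb p I U F F' * t := by
    show UPow.mkHom Y = _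
    simp only [Y, t, map_mul, map_opComb, U]
  have hX : ‖(UPow.mk X : UPow A ω)‖ < 3 * δ + ε := by
    rw [eX]
    refine (norm_le_three_mul hδ s1 ?_).trans_lt (by linarith)
    rwa [← neg_mul, ← mul_neg, neg_sub]
  have hXn : ∀ n, X n = top n * (opForm p I (T n) F F - 1) * top n := fun n => by
    show seqEval n X = _
    simp only [X, map_mul, map_sub, map_one, map_opForm]
    rw [opForm_congr (T := fun a b => seqEval n (Tf a b)) (T' := T n) (hTf n) p I hF hF]
    rfl
  have hYn : ∀ n, Y n = top n * opComb p I (T n) F F' * top n := fun n => by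
    show seqEval n Y = _
    simp only [Y, map_mul, map_opComb]
    rw [opComb_congr (T := fun a b => seqEval n (Tf a b)) (T' := T n) (hTf n) p I hF hF']
    rfl
  have hev := UPow.eventually_of_norm_lt hX
  let w : ℕ → A := fun n => if h : ∃ w : A, ‖star w * w - Y n‖ ≤ 1 / ((n : ℝ) + 1) ∧
      d + δ + ε < ‖star w * w‖ then h.choose else 0
  have hw : ∀ n, ‖X n‖ < 3 * δ + ε →
      ‖star (w n) * w n - Y n‖ ≤ 1 / ((n : ℝ) + 1) ∧ d + δ + ε < ‖star (w n) * w n‖ := by
    intro n hn
    have h := hbad n (by rw [← hXn n]; exact hn.le)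
    rw [← hYn n] at h
    simp only [w, dif_pos h]
    exact h.choose_spec
  let v : ℕ →ᵇ A := ofNormedAddCommGroupDiscrete (fun n => star (w n) * w n) (‖Y‖ + 1) fun n => by
    by_cases h : ∃ w : A, ‖star w * w - Y n‖ ≤ 1 / ((n : ℝ) + 1) ∧ d + δ + ε < ‖star w * w‖
    · simp only [w, dif_pos h]
      have h1 := norm_le_norm_add_norm_sub' (star h.choose * h.choose) (Y n)
      have h2 : 1 / ((n : ℝ) + 1) ≤ 1 := by
        rw [div_le_one (by positivity)]
        simp
      linarith [h.choose_spec.1, Y.norm_coe_le_norm n]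
    · simp only [w, dif_neg h, star_zero, mul_zero, norm_zero]
      positivity
  let wf : ℕ →ᵇ A := ofNormedAddCommGroupDiscrete w (Real.sqrt (‖Y‖ + 1)) fun n => by
    refine Real.le_sqrt_of_sq_le ?_
    rw [sq, ← CStarRing.norm_star_mul_self]
    exact le_trans (v.norm_coe_le_norm n) (BoundedContinuousFunction.norm_ofNormedAddCommGroup_le _
      (by positivity) _)
  have ev : (UPow.mk v : UPow A ω) = UPow.mk Y := by
    rw [UPow.mk_eq_mk, mem_nullIdeal]
    refine squeeze_zero' (Eventually.of_forall fun n => norm_nonneg _) ?_ hlim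
    filter_upwards [hev] with n hn
    exact (hw n hn).1
  have epos : 0 ≤ (UPow.mk v : UPow A ω) := by
    have : v = star wf * wf := by ext n; rfl
    rw [this, map_mul, UPow.mk_star]
    exact star_mul_self_nonneg _
  have hv : ‖(UPow.mk v : UPow A ω)‖ < d + δ + ε := by
    have h1 : (UPow.mk v : UPow A ω) ≤ (d + δ) • (1 : UPow A ω) := by rw [ev, eY]; exact s3
    have h2 := (CStarAlgebra.norm_le_iff_le_algebraMap _ (show (0 : ℝ) ≤ d + δ by linarith) epos).2
      (by rw [Algebra.algebraMap_eq_smul_one]; exact h1)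
    linarith
  obtain ⟨n, h1, h2⟩ := (hev.and (UPow.eventually_of_norm_lt hv)).exists
  exact absurd (hw n h1).2 (not_lt.2 h2.le)

end

end Vale.Agent.P095.Elem.Absorb
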