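import Vale.Agent.P095.Elem.Absorb.Sym

/-!
# P095, amenable groups: leaves, patterns and translated sources

Elementary consequences of the axioms of `Leaves`: the patterns are orthogonal and kill the common
source, the patterns act as units on the translated sources, and the means over the leaves of
products of two translates almost commute with the parts of the patterns.
-/

namespace Vale.Agent.P095.Elem

open VAgent.P101
open scoped CStarAlgebra

noncomputable section

variable {F : Type*} [CStarAlgebra F] {G : Type*} [Group G] {β : G →* (F ≃⋆ₐ[ℂ] F)}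

theorem norm_aut_le (a : F ≃⋆ₐ[ℂ] F) (x : F) : ‖a x‖ ≤ ‖x‖ :=
  NonUnitalStarAlgHom.norm_apply_le a x

theorem act_mul_apply (g h : G) (x : F) : β (g * h) x = β g (β h x) := by rw [map_mul]; rfl

theorem act_one_apply (x : F) : β 1 x = x := by rw [map_one]; rfl

/-- The commutator with a product of a family is controlled by the only factor which does not
commute. -/
theorem norm_oprodF_comm_le {M : ℕ} (f : Fin M → F) (hf : ∀ k, ‖f k‖ ≤ 1) (l : Fin M)
    (hc : ∀ k k', k ≠ k' → Commute (f k) (f k')) {x : F} (hx : ∀ k, k ≠ l → Commute x (f k)) :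
    ‖oprodF f * x - x * oprodF f‖ ≤ ‖f l * x - x * f l‖ := by
  set f' : Fin M → F := fun k => if k = l then 1 else f k
  have e : oprodF f = oprodF f' * f l := by
    conv_rhs => rw [← oprodF_single l (f l)]
    rw [oprodF_mul]
    · refine oprodF_congr fun k => ?_
      by_cases hk : k = l <;> simp [f', hk]
    · intro k k' hkk
      simp only [f']
      split_ifs with h1 h2
      · exact Commute.one_right _
      · subst h1; exact hc _ _ hkk
      · exact Commute.one_left _
      · exact Commute.one_left _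
  have hx' : Commute x (oprodF f') := oprodF_commute _ fun k => by
    simp only [f']
    split_ifs with hk
    exacts [Commute.one_right x, hx k hk]
  have e2 : oprodF f * x - x * oprodF f = oprodF f' * (f l * x - x * f l) := by
    rw [e, mul_sub, ← mul_assoc x, hx'.eq]
    simp only [mul_assoc]
  rw [e2]
  refine (norm_mul_le _ _).trans (mul_le_of_le_one_left (norm_nonneg _) (norm_oprodF_le _ fun k => ?_))
  simp only [f']
  split_ifs
  exacts [norm_one_le, hf k]

theorem norm_famMean_le' {M : ℕ} (f : Fin M → F) {r : ℝ} (hr : 0 ≤ r) (h : ∀ l, ‖f l‖ ≤ r) :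
    ‖famMean f‖ ≤ r := by
  rw [famMean, norm_smul, Real.norm_of_nonneg (by positivity)]
  have hs : ‖∑ l, f l‖ ≤ (M : ℝ) * r :=
    (norm_sum_le _ _).trans ((Finset.sum_le_sum fun l _ => h l).trans (by simp))
  rcases Nat.eq_zero_or_pos M with rfl | hM
  · simpa using hr
  · rw [inv_mul_le_iff₀ (by exact_mod_cast hM)]
    exact hs

/-- The means of two families which commute across the indices commute up to `2 / M`. -/
theorem norm_famMean_comm_le {M : ℕ} (f g : Fin M → F) (hf : ∀ l, ‖f l‖ ≤ 1) (hg : ∀ l, ‖g l‖ ≤ 1)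
    (hc : ∀ l l', l ≠ l' → Commute (f l) (g l')) :
    ‖famMean f * famMean g - famMean g * famMean f‖ ≤ 2 / M := by
  have e : famMean f * famMean g - famMean g * famMean f =
      ((M : ℝ)⁻¹ * (M : ℝ)⁻¹) • ∑ l, (f l * g l - g l * f l) := by
    simp only [famMean, smul_mul_smul_comm, ← smul_sub, Finset.sum_mul, Finset.mul_sum]
    congr 1
    rw [Finset.sum_comm (f := fun a b => f b * g a), ← Finset.sum_sub_distrib]
    refine Finset.sum_congr rfl fun l _ => ?_
    rw [← Finset.sum_sub_distrib]
    refine Finset.sum_eq_single l (fun l' _ hne => ?_) (fun h => absurd (Finset.mem_univ l) h)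
    rw [(hc l l' (Ne.symm hne)).eq, sub_self]
  rw [e, norm_smul, Real.norm_of_nonneg (by positivity)]
  have h2 : ‖∑ l, (f l * g l - g l * f l)‖ ≤ 2 * (M : ℝ) := by
    refine (norm_sum_le _ _).trans ((Finset.sum_le_sum (g := fun _ => (2 : ℝ)) fun l _ => ?_).trans
      (by simp [mul_comm]))
    refine (norm_sub_le _ _).trans ?_
    linarith [norm_mul_le (f l) (g l), norm_mul_le (g l) (f l),
      mul_le_one₀ (hf l) (norm_nonneg _) (hg l), mul_le_one₀ (hg l) (norm_nonneg _) (hf l)]
  refine (mul_le_mul_of_nonneg_left h2 (by positivity)).trans_eq ?_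
  rcases Nat.eq_zero_or_pos M with rfl | hM
  · simp
  · field_simp

namespace Leaves

variable {W : Finset G} {M : ℕ} {η : ℝ} (L : Leaves β W M η)

/-- One of the four elements of a leaf. -/
abbrev elems (l : Fin M) : Set F := {L.q l, L.q' l, L.e l, L.t l}

theorem sa_q (l : Fin M) : IsSelfAdjoint (L.q l) := by
  obtain ⟨c, hc⟩ := (L.pos l).1.1
  rw [hc]; exact IsSelfAdjoint.star_mul_self c

theorem sa_q' (l : Fin M) : IsSelfAdjoint (L.q' l) := by
  obtain ⟨c, hc⟩ := (L.pos l).2.1.1
  rw [hc]; exact IsSelfAdjoint.star_mul_self c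

theorem sa_e (l : Fin M) : IsSelfAdjoint (L.e l) := by
  obtain ⟨c, hc⟩ := (L.pos l).2.2.1.1
  rw [hc]; exact IsSelfAdjoint.star_mul_self c

theorem q_q' (l : Fin M) : L.q l * L.q' l = L.q l := by
  simpa [(L.sa_q l).star_eq, (L.sa_q' l).star_eq] using congrArg star (L.q'_q l)

theorem q'_e (l : Fin M) : L.q' l * L.e l = 0 := by
  simpa [(L.sa_e l).star_eq, (L.sa_q' l).star_eq] using congrArg star (L.e_q' l)

theorem q_e (l : Fin M) : L.q l * L.e l = 0 := by
  rw [← L.q_q' l, mul_assoc, L.q'_e l, mul_zero]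

theorem commute_orb {l l' : Fin M} (hll : l ≠ l') {x y : F} (hx : x ∈ L.elems l)
    (hy : y ∈ L.elems l') (g h : G) :
    Commute (β g x) (β h y) ∧ Commute (β g x) (star (β h y)) := by
  have H := L.comm l l' hll x hx y hy (h⁻¹ * g)
  have e : β h (β (h⁻¹ * g) x) = β g x := by rw [← act_mul_apply, mul_inv_cancel_left]
  exact ⟨e ▸ H.1.map (β h), by rw [← map_star]; exact e ▸ H.2.map (β h)⟩

theorem commute_base {l l' : Fin M} (hll : l ≠ l') {x y : F} (hx : x ∈ L.elems l)
    (hy : y ∈ L.elems l') : Commute x y := by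
  simpa [act_one_apply] using (L.commute_orb hll hx hy 1 1).1

/-- The translates of the sources. -/
def tg (g : G) (l : Fin M) : F := β g (L.t l)

theorem norm_tg_le (g : G) (l : Fin M) : ‖L.tg g l‖ ≤ 1 :=
  (norm_aut_le _ _).trans (L.pos l).2.2.2

theorem aut_tg (g h : G) (l : Fin M) : β g (L.tg h l) = L.tg (g * h) l :=
  (act_mul_apply g h _).symm

theorem commute_tg {l l' : Fin M} (hll : l ≠ l') (g h : G) :
    Commute (L.tg g l) (L.tg h l') ∧ Commute (L.tg g l) (star (L.tg h l')) :=
  L.commute_orb hll (by simp) (by simp) g h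

theorem commute_base_tg {l l' : Fin M} (hll : l ≠ l') {x : F} (hx : x ∈ L.elems l) (g : G) :
    Commute x (L.tg g l') ∧ Commute x (star (L.tg g l')) := by
  unfold Leaves.tg
  simpa [act_one_apply] using L.commute_orb hll hx (show L.t l' ∈ L.elems l' by simp) 1 g

/-- The products of two translated sources. -/
def Tgh (g h : G) (l : Fin M) : F := star (L.tg g l) * L.tg h l

theorem norm_Tgh_le (g h : G) (l : Fin M) : ‖L.Tgh g h l‖ ≤ 1 :=
  (norm_mul_le _ _).trans
    (mul_le_one₀ ((norm_star _).trans_le (L.norm_tg_le g l)) (norm_nonneg _) (L.norm_tg_le h l))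

theorem commute_Tgh' (g h g' h' : G) {l l' : Fin M} (hll : l ≠ l') :
    Commute (L.Tgh g h l) (L.Tgh g' h' l') := by
  unfold Tgh
  refine Commute.mul_left (Commute.mul_right ?_ ?_) (Commute.mul_right ?_ ?_)
  · exact (L.commute_tg hll g g').1.star_star
  · simpa using (L.commute_tg hll g h').2.star_star
  · exact (L.commute_tg hll h g').2
  · exact (L.commute_tg hll h h').1

theorem commute_Tgh (g h : G) (l l' : Fin M) : Commute (L.Tgh g h l) (L.Tgh g h l') := by
  rcases eq_or_ne l l' with rfl | hll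
  · exact Commute.refl _
  · exact L.commute_Tgh' g h g h hll

theorem star_Tgh (g h : G) (l : Fin M) : star (L.Tgh g h l) = L.Tgh h g l := by simp [Tgh]

theorem pat_factor_mem (σ : Finset (Fin M)) (l : Fin M) :
    (if l ∈ σ then L.e l else L.q' l) ∈ L.elems l := by
  split_ifs <;> simp

theorem norm_pat_factor_le (σ : Finset (Fin M)) (l : Fin M) :
    ‖(if l ∈ σ then L.e l else L.q' l)‖ ≤ 1 := by
  split_ifs; exacts [(L.pos l).2.2.1.2, (L.pos l).2.1.2]

theorem star_pat (σ : Finset (Fin M)) : star (L.pat σ) = L.pat σ := by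
  rw [Leaves.pat, oprodF_star _ fun l l' hll => L.commute_base hll (L.pat_factor_mem σ l)
    (L.pat_factor_mem σ l')]
  refine oprodF_congr fun l => ?_
  split_ifs
  exacts [(L.sa_e l).star_eq, (L.sa_q' l).star_eq]

theorem star_top : star L.top = L.top := by
  rw [Leaves.top, oprodF_star _ fun l l' hll => L.commute_base hll (by simp) (by simp)]
  exact oprodF_congr fun l => (L.sa_q l).star_eq

theorem norm_top_le : ‖L.top‖ ≤ 1 := norm_oprodF_le _ fun l => (L.pos l).1.2

theorem norm_pat_le (σ : Finset (Fin M)) : ‖L.pat σ‖ ≤ 1 :=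
  norm_oprodF_le _ (L.norm_pat_factor_le σ)

theorem pat_mul_pat {σ σ' : Finset (Fin M)} (h : σ ≠ σ') : L.pat σ * L.pat σ' = 0 := by
  obtain ⟨l, hl⟩ : ∃ l, ¬(l ∈ σ ↔ l ∈ σ') := by
    by_contra hc
    exact h (Finset.ext fun l => not_not.1 fun h' => hc ⟨l, h'⟩)
  unfold Leaves.pat
  rw [oprodF_mul]
  · refine oprodF_eq_zero _ l ?_
    by_cases h1 : l ∈ σ <;> by_cases h2 : l ∈ σ'
    · exact absurd (iff_of_true h1 h2) hl
    · simp [h1, h2, L.e_q']
    · simp [h1, h2, L.q'_e]
    · exact absurd (iff_of_false h1 h2) hl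
  · exact fun k k' hkk => L.commute_base hkk (L.pat_factor_mem σ' k) (L.pat_factor_mem σ k')

theorem top_mul_pat {σ : Finset (Fin M)} (h : σ.Nonempty) : L.top * L.pat σ = 0 := by
  obtain ⟨l, hl⟩ := h
  unfold Leaves.pat Leaves.top
  rw [oprodF_mul]
  · exact oprodF_eq_zero _ l (by simp [hl, L.q_e])
  · exact fun k k' hkk => L.commute_base hkk (L.pat_factor_mem σ k) (by simp)

/-- The part of the pattern outside `σ`. -/
def qpat (σ : Finset (Fin M)) : F := subProd σᶜ L.q'

theorem norm_qpat_le (σ : Finset (Fin M)) : ‖L.qpat σ‖ ≤ 1 :=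
  norm_subProd_le _ _ (fun l => (L.pos l).2.1.2) norm_one_le

theorem pat_eq (σ : Finset (Fin M)) : L.pat σ = subProd σ L.e * L.qpat σ := by
  unfold Leaves.pat qpat subProd
  rw [oprodF_mul]
  · refine oprodF_congr fun l => ?_
    by_cases hl : l ∈ σ <;> simp [hl]
  · intro k k' hkk
    split_ifs <;> first
      | exact Commute.one_left _
      | exact Commute.one_right _
      | exact L.commute_base hkk (by simp) (by simp)

theorem qpat_mul_top (σ : Finset (Fin M)) : L.qpat σ * L.top = L.top := by
  unfold qpat subProd Leaves.top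
  rw [oprodF_mul]
  · refine oprodF_congr fun l => ?_
    split_ifs
    exacts [L.q'_q l, one_mul _]
  · intro k k' hkk
    split_ifs
    exacts [L.commute_base hkk (by simp) (by simp), Commute.one_right _]

theorem commute_qpat_subProd (σ : Finset (Fin M)) (g : G) :
    Commute (L.qpat σ) (subProd σ (L.tg g)) := by
  refine oprodF_commute _ fun l => ?_
  split_ifs with hl
  · refine (oprodF_commute _ fun k => ?_).symm
    split_ifs with hk
    · have hne : k ≠ l := fun h => by subst h; simp [hl] at hk
      exact (L.commute_base_tg hne (by simp) g).1.symm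
    · exact Commute.one_right _
  · exact Commute.one_right _

theorem norm_epat_tg_sub_le (σ : Finset (Fin M)) {g : G} (hg : g ∈ W) :
    ‖subProd σ L.e * subProd σ (L.tg g) - subProd σ (L.tg g)‖ ≤ σ.card * η := by
  unfold subProd
  rw [oprodF_mul]
  · refine (norm_oprodF_sub_le _ _ (fun k => ?_) (fun k => ?_)).trans
      ((Finset.sum_le_sum (g := fun k => if k ∈ σ then η else 0) fun k _ => ?_).trans_eq
        (by simp [Finset.sum_ite_mem]))
    · refine (norm_mul_le _ _).trans (mul_le_one₀ ?_ (norm_nonneg _) ?_) <;> split_ifs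
      exacts [(L.pos k).2.2.1.2, norm_one_le, L.norm_tg_le g k, norm_one_le]
    · split_ifs; exacts [L.norm_tg_le g k, norm_one_le]
    · by_cases hk : k ∈ σ
      · simp only [hk, if_true]
        have e : L.e k * L.tg g k - L.tg g k = (L.e k - β g (L.e k)) * L.tg g k := by
          rw [sub_mul, Leaves.tg, ← map_mul, L.range k]
        rw [e]
        refine (norm_mul_le _ _).trans ((mul_le_of_le_one_right (norm_nonneg _)
          (L.norm_tg_le g k)).trans ?_)
        rw [norm_sub_rev]
        exact (L.inv k).2.2 g hg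
      · simp [hk]
  · intro k k' hkk
    split_ifs <;> first
      | exact Commute.one_left _
      | exact Commute.one_right _
      | exact (L.commute_base_tg (Ne.symm hkk) (by simp) g).1.symm

theorem norm_q'_Tgh_comm_le {g h : G} (hg : g ∈ W) (hh : h ∈ W) (l : Fin M) :
    ‖L.q' l * L.Tgh g h l - L.Tgh g h l * L.q' l‖ ≤ 2 * η := by
  have key : ∀ k ∈ W, ‖L.tg k l * L.q' l - L.tg k l‖ ≤ η := fun k hk => by
    have e : L.tg k l * L.q' l - L.tg k l = L.tg k l * (L.q' l - β k (L.q' l)) := by
      rw [mul_sub, Leaves.tg, ← map_mul, L.t_q' l]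
    rw [e]
    refine (norm_mul_le _ _).trans ((mul_le_of_le_one_left (norm_nonneg _) (L.norm_tg_le k l)).trans ?_)
    rw [norm_sub_rev]
    exact (L.inv l).2.1 k hk
  have e : L.q' l * L.Tgh g h l - L.Tgh g h l * L.q' l =
      star (L.tg g l * L.q' l - L.tg g l) * L.tg h l -
        star (L.tg g l) * (L.tg h l * L.q' l - L.tg h l) := by
    rw [Leaves.Tgh, star_sub, star_mul, (L.sa_q' l).star_eq]
    noncomm_ring
  rw [e, two_mul]
  refine (norm_sub_le _ _).trans (add_le_add ?_ ?_)
  · refine (norm_mul_le _ _).trans ((mul_le_of_le_one_right (norm_nonneg _) (L.norm_tg_le h l)).trans ?_)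
    rw [norm_star]
    exact key g hg
  · refine (norm_mul_le _ _).trans ((mul_le_of_le_one_left (norm_nonneg _)
      ((norm_star _).trans_le (L.norm_tg_le g l))).trans (key h hh))

/-- The mean over the leaves of the products of two translates. -/
def Tbar (g h : G) : F := famMean (L.Tgh g h)

theorem norm_Tbar_le (g h : G) : ‖L.Tbar g h‖ ≤ 1 := norm_famMean_le _ (L.norm_Tgh_le g h)

theorem star_Tbar (g h : G) : star (L.Tbar g h) = L.Tbar h g := by
  simp [Tbar, famMean, star_sum, L.star_Tgh]

theorem aut_Tbar (k g h : G) : β k (L.Tbar g h) = L.Tbar (k * g) (k * h) := by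
  simp only [Tbar, famMean]
  rw [← Complex.coe_smul, map_smul, Complex.coe_smul, map_sum]
  congr 1
  refine Finset.sum_congr rfl fun l _ => ?_
  rw [Tgh, Tgh, map_mul, map_star, L.aut_tg, L.aut_tg]

theorem norm_qpat_Tbar_comm_le (hη : 0 ≤ η) (σ : Finset (Fin M)) {g h : G} (hg : g ∈ W)
    (hh : h ∈ W) : ‖L.qpat σ * L.Tbar g h - L.Tbar g h * L.qpat σ‖ ≤ 2 * η := by
  have e : L.qpat σ * L.Tbar g h - L.Tbar g h * L.qpat σ =
      famMean fun l => L.qpat σ * L.Tgh g h l - L.Tgh g h l * L.qpat σ := by
    simp only [Tbar, famMean, mul_smul_comm, smul_mul_assoc, Finset.mul_sum, Finset.sum_mul,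
      Finset.sum_sub_distrib, smul_sub]
  rw [e]
  refine norm_famMean_le' _ (by linarith) fun l => ?_
  unfold qpat subProd
  refine (norm_oprodF_comm_le _ (fun k => ?_) l (fun k k' hkk => ?_) fun k hk => ?_).trans ?_
  · split_ifs; exacts [(L.pos k).2.1.2, norm_one_le]
  · split_ifs <;> first
      | exact Commute.one_left _
      | exact Commute.one_right _
      | exact L.commute_base hkk (by simp) (by simp)
  · split_ifs
    · have hq := L.commute_base_tg hk (show L.q' k ∈ L.elems k by simp)
      exact ((hq g).2.mul_right (hq h).1).symm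
    · exact Commute.one_right _
  · split_ifs
    · exact L.norm_q'_Tgh_comm_le hg hh l
    · simp only [one_mul, mul_one, sub_self, norm_zero]
      linarith

theorem norm_Tgg_top_sub_le {g : G} (hg : g ∈ W) (l : Fin M) :
    ‖L.Tgh g g l * L.top - L.top‖ ≤ 2 * η := by
  conv_lhs => rw [← oprodF_single l (L.Tgh g g l)]
  unfold Leaves.top
  rw [oprodF_mul]
  · refine (norm_oprodF_sub_le _ _ (fun k => ?_) (fun k => (L.pos k).1.2)).trans ?_
    · refine (norm_mul_le _ _).trans (mul_le_one₀ ?_ (norm_nonneg _) (L.pos k).1.2)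
      split_ifs; exacts [L.norm_Tgh_le g g _, norm_one_le]
    · refine (Finset.sum_le_sum (g := fun k => if k = l then 2 * η else 0)
        fun k _ => ?_).trans_eq (by simp)
      by_cases hk : k = l
      · subst hk
        simp only [if_true]
        have hq := (L.inv k).1 g hg
        have hs : L.Tgh g g k * β g (L.q k) = β g (L.q k) := by
          rw [Leaves.Tgh, Leaves.tg, ← map_star, ← map_mul, ← map_mul, L.source k]
        rw [show L.Tgh g g k * L.q k - L.q k =
          L.Tgh g g k * (L.q k - β g (L.q k)) + (β g (L.q k) - L.q k) by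
            rw [mul_sub, hs]; abel, two_mul]
        refine (norm_add_le _ _).trans (add_le_add ?_ hq)
        refine (norm_mul_le _ _).trans ((mul_le_of_le_one_left (norm_nonneg _)
          (L.norm_Tgh_le g g k)).trans ?_)
        rw [norm_sub_rev]; exact hq
      · simp [hk]
  · intro k k' hkk
    split_ifs with h'
    · subst h'
      have hq := L.commute_base_tg hkk (show L.q k ∈ L.elems k by simp) g
      exact hq.2.mul_right hq.1
    · exact Commute.one_right _

theorem norm_Tbar_top_sub_le (hM : 0 < M) {g : G} (hg : g ∈ W) :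
    ‖L.Tbar g g * L.top - L.top‖ ≤ 2 * η := by
  have hη : 0 ≤ η := le_trans (norm_nonneg _) ((L.inv ⟨0, hM⟩).1 g hg)
  have e : L.Tbar g g * L.top - L.top = famMean fun l => L.Tgh g g l * L.top - L.top := by
    simp only [Tbar, famMean, smul_mul_assoc, Finset.sum_mul, Finset.sum_sub_distrib, smul_sub,
      Finset.sum_const, Finset.card_univ, Fintype.card_fin, ← Nat.cast_smul_eq_nsmul ℝ, smul_smul]
    rw [inv_mul_cancel₀ (by exact_mod_cast hM.ne'), one_smul]
  rw [e]
  exact norm_famMean_le' _ (by linarith) (L.norm_Tgg_top_sub_le hg)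

theorem norm_aut_pat_sub_le (σ : Finset (Fin M)) {g : G} (hg : g ∈ W) :
    ‖β g (L.pat σ) - L.pat σ‖ ≤ M * η := by
  unfold Leaves.pat
  rw [oprodF_map]
  refine (norm_oprodF_sub_le _ _ (fun l => (norm_aut_le _ _).trans (L.norm_pat_factor_le σ l))
    (L.norm_pat_factor_le σ)).trans
    ((Finset.sum_le_sum (g := fun _ => η) fun l _ => ?_).trans_eq (by simp))
  split_ifs; exacts [(L.inv l).2.2 g hg, (L.inv l).2.1 g hg]

theorem norm_aut_top_sub_le {g : G} (hg : g ∈ W) : ‖β g L.top - L.top‖ ≤ M * η := by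
  unfold Leaves.top
  rw [oprodF_map]
  exact (norm_oprodF_sub_le _ _ (fun l => (norm_aut_le _ _).trans (L.pos l).1.2)
    (fun l => (L.pos l).1.2)).trans
    ((Finset.sum_le_sum (g := fun _ => η) fun l _ => (L.inv l).1 g hg).trans_eq (by simp))

end Leaves

end

end Vale.Agent.P095.Elem
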