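import Vale.Agent.P095.Elem.Absorb.Scalar
import Vale.Agent.P101.Kill

/-!
# P095, amenable groups: the scale form of an almost commuting operator kernel

The operator version of `cxForm`, its naturality, and its sandwich by an element on which the
diagonal of the kernel is one, for a commuting kernel.
-/

open Finset
open scoped CStarAlgebra symmDiff

namespace Vale.Agent.P095.Elem.Absorb

open VAgent.P101

noncomputable section

variable {A : Type*} [CStarAlgebra A] {β : Type*}

/-- The self-adjoint part. -/
def symPart (a : A) : A := (2 : ℝ)⁻¹ • (a + star a)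

/-- The degree. -/
def opDeg (i : ℕ) (T : β → β → A) (F : Finset β) (x : β) : A :=
  (F.card : ℝ)⁻¹ • ∑ y ∈ F, symPart (cesaro i (T x y))

/-- The weight. -/
def opU (p : Polynomial ℝ) (i : ℕ) (T : β → β → A) (F : Finset β) (x : β) : A :=
  (F.card : ℝ)⁻¹ • Polynomial.aeval (opDeg i T F x) p

/-- The pairing at one scale. -/
def opPair (p : Polynomial ℝ) (i : ℕ) (T : β → β → A) (F F' : Finset β) : A :=
  ∑ x ∈ F, ∑ y ∈ F', opU p i T F x * cesaro i (T x y) * opU p i T F' y

/-- The pairing averaged over the scales. -/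
def opForm (p : Polynomial ℝ) (I : ℕ) (T : β → β → A) (F F' : Finset β) : A :=
  (I : ℝ)⁻¹ • ∑ i ∈ range I, opPair p i T F F'

theorem isSelfAdjoint_symPart (a : A) : IsSelfAdjoint (symPart a) := by
  rw [IsSelfAdjoint, symPart, star_smul, star_add, star_star, star_trivial, add_comm]

theorem isSelfAdjoint_opDeg (i : ℕ) (T : β → β → A) (F : Finset β) (x : β) :
    IsSelfAdjoint (opDeg i T F x) := by
  simp only [opDeg, IsSelfAdjoint, star_smul, star_trivial, star_sum,
    (isSelfAdjoint_symPart _).star_eq]

theorem isSelfAdjoint_aeval {a : A} (ha : IsSelfAdjoint a) (p : Polynomial ℝ) :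
    IsSelfAdjoint (Polynomial.aeval a p) := by
  induction p using Polynomial.induction_on' with
  | add p q hp hq => rw [map_add]; exact hp.add hq
  | monomial n r =>
    rw [Polynomial.aeval_monomial, ← Algebra.smul_def, IsSelfAdjoint, star_smul, star_trivial,
      star_pow, ha.star_eq]

theorem isSelfAdjoint_opU (p : Polynomial ℝ) (i : ℕ) (T : β → β → A) (F : Finset β) (x : β) :
    IsSelfAdjoint (opU p i T F x) := by
  rw [opU, IsSelfAdjoint, star_smul, star_trivial,
    (isSelfAdjoint_aeval (isSelfAdjoint_opDeg i T F x) p).star_eq]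

section map

variable {B : Type*} [CStarAlgebra B] {Φ : Type*} [FunLike Φ A B] [AlgHomClass Φ ℂ A B]
  [StarHomClass Φ A B] (φ : Φ)

omit [StarHomClass Φ A B] in
theorem map_real_smul' (r : ℝ) (a : A) : φ (r • a) = r • φ a := by
  rw [← Complex.coe_smul, map_smul, Complex.coe_smul]

omit [StarHomClass Φ A B] in
theorem map_cesaro (i : ℕ) (a : A) : φ (cesaro i a) = cesaro i (φ a) := by
  simp only [cesaro, map_real_smul', map_sum, map_pow]

theorem map_symPart (a : A) : φ (symPart a) = symPart (φ a) := by
  simp only [symPart, map_real_smul', map_add, map_star]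

omit [StarHomClass Φ A B] in
theorem map_aeval_real (a : A) (p : Polynomial ℝ) :
    φ (Polynomial.aeval a p) = Polynomial.aeval (φ a) p := by
  induction p using Polynomial.induction_on' with
  | add p q hp hq => rw [map_add, map_add, map_add, hp, hq]
  | monomial n r =>
    rw [Polynomial.aeval_monomial, Polynomial.aeval_monomial, ← Algebra.smul_def,
      ← Algebra.smul_def, map_real_smul', map_pow]

theorem map_opU (p : Polynomial ℝ) (i : ℕ) (T : β → β → A) (F : Finset β) (x : β) :
    φ (opU p i T F x) = opU p i (fun a b => φ (T a b)) F x := by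
  simp only [opU, opDeg, map_real_smul', map_aeval_real, map_sum, map_symPart, map_cesaro]

theorem map_opPair (p : Polynomial ℝ) (i : ℕ) (T : β → β → A) (F F' : Finset β) :
    φ (opPair p i T F F') = opPair p i (fun a b => φ (T a b)) F F' := by
  simp only [opPair, map_sum, map_mul, map_opU, map_cesaro]

theorem map_opForm (p : Polynomial ℝ) (I : ℕ) (T : β → β → A) (F F' : Finset β) :
    φ (opForm p I T F F') = opForm p I (fun a b => φ (T a b)) F F' := by
  simp only [opForm, map_real_smul', map_sum, map_opPair]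

end map

/-- Transport along a change of variables. -/
theorem opU_image [DecidableEq β] {γ : β → β} (hγ : Function.Injective γ) (p : Polynomial ℝ)
    (i : ℕ) (T : β → β → A) (F : Finset β) (x : β) :
    opU p i T (F.image γ) (γ x) = opU p i (fun a b => T (γ a) (γ b)) F x := by
  simp only [opU, opDeg, card_image_of_injective _ hγ, sum_image hγ.injOn]

theorem opU_congr {S : Finset β} {T T' : β → β → A} (h : ∀ x ∈ S, ∀ y ∈ S, T x y = T' x y)
    (p : Polynomial ℝ) (i : ℕ) {F : Finset β} (hF : F ⊆ S) {x : β} (hx : x ∈ S) :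
    opU p i T F x = opU p i T' F x := by
  simp only [opU, opDeg]
  rw [sum_congr rfl fun y hy => by rw [h x hx y (hF hy)]]

theorem opForm_congr {S : Finset β} {T T' : β → β → A} (h : ∀ x ∈ S, ∀ y ∈ S, T x y = T' x y)
    (p : Polynomial ℝ) (I : ℕ) {F F' : Finset β} (hF : F ⊆ S) (hF' : F' ⊆ S) :
    opForm p I T F F' = opForm p I T' F F' := by
  simp only [opForm, opPair]
  congr 1
  refine sum_congr rfl fun i _ => sum_congr rfl fun x hx => sum_congr rfl fun y hy => ?_
  rw [opU_congr h p i hF (hF hx), opU_congr h p i hF' (hF' hy), h x (hF hx) y (hF' hy)]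

section scalar

theorem symPart_complex (z : ℂ) : symPart z = (z.re : ℂ) := by
  rw [symPart, Complex.star_def, Complex.add_conj, Complex.real_smul]
  push_cast
  ring

theorem aeval_ofReal (t : ℝ) (p : Polynomial ℝ) :
    Polynomial.aeval (t : ℂ) p = ((p.eval t : ℝ) : ℂ) :=
  Polynomial.aeval_algebraMap_apply_eq_algebraMap_eval t p

theorem opU_complex (p : Polynomial ℝ) (i : ℕ) (T : β → β → ℂ) (F : Finset β) (x : β) :
    opU p i T F x =
      (((F.card : ℝ)⁻¹ * p.eval (VAgent.P095.Gamma.deg (cxKer i T) F x) : ℝ) : ℂ) := by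
  have e : opDeg i T F x = ((VAgent.P095.Gamma.deg (cxKer i T) F x : ℝ) : ℂ) := by
    simp only [opDeg, VAgent.P095.Gamma.deg, cxKer, symPart_complex, Complex.real_smul]
    push_cast
    rfl
  rw [opU, e, aeval_ofReal, Complex.real_smul]
  push_cast
  rfl

theorem opForm_complex_re (p : Polynomial ℝ) (I : ℕ) (T : β → β → ℂ) (F F' : Finset β) :
    (opForm p I T F F').re = cxForm p I T F F' := by
  simp only [opForm, opPair, cxForm, VAgent.P095.Gamma.qform, Complex.real_smul,
    Complex.re_ofReal_mul, Complex.re_sum, mul_sum, opU_complex]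
  refine sum_congr rfl fun i _ => sum_congr rfl fun x _ => sum_congr rfl fun y _ => ?_
  simp only [Complex.mul_re, Complex.mul_im, Complex.ofReal_re, Complex.ofReal_im, cxKer, mul_inv]
  ring

theorem cxForm_comm [DecidableEq β] {S F F' : Finset β} {T : β → β → ℂ} (hT : GoodOn S T)
    (hF : F ⊆ S) (hF' : F' ⊆ S) (p : Polynomial ℝ) (I : ℕ) :
    cxForm p I T F' F = cxForm p I T F F' := by
  simp only [cxForm, VAgent.P095.Gamma.qform]
  congr 1
  refine sum_congr rfl fun i _ => ?_
  rw [sum_comm, mul_comm (F'.card : ℝ)]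
  congr 1
  refine sum_congr rfl fun x hx => sum_congr rfl fun y hy => ?_
  have : cxKer i T y x = cxKer i T x y := by
    rw [cxKer, cxKer, hT.herm x (hF hx) y (hF' hy)]
    simp only [cesaro, Complex.smul_re, Complex.re_sum, Complex.star_def, ← map_pow, Complex.conj_re]
  rw [this]
  ring

end scalar

/-- A commuting kernel of mean inner products, with a sandwiching element on which the diagonal
is one. -/
structure OpKernel (S : Finset β) (T : β → β → A) (top : A) : Prop where
  comm : ∀ x ∈ S, ∀ y ∈ S, ∀ x' ∈ S, ∀ y' ∈ S, Commute (T x y) (T x' y')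
  herm : ∀ x ∈ S, ∀ y ∈ S, star (T x y) = T y x
  norm_le : ∀ x ∈ S, ∀ y ∈ S, ‖T x y‖ ≤ 1
  gram : ∀ x ∈ S, ∀ y ∈ S, ∀ z ∈ S, ∀ a b c : ℂ, ∃ r : ℝ, ‖(r : ℂ) • (1 : A) -
    ((star a * a) • T x x + (star a * b) • T x y + (star a * c) • T x z +
      (star b * a) • T y x + (star b * b) • T y y + (star b * c) • T y z +
      (star c * a) • T z x + (star c * b) • T z y + (star c * c) • T z z)‖ ≤ r
  diag : ∀ x ∈ S, T x x * top = top

/-- The triangle inequality from positivity on three points. -/
theorem triangle_of_gram {u v w : ℂ} (h : ∀ a b c : ℂ, 0 ≤ (star a * a + star a * b * u +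
    star a * c * w + star b * a * star u + star b * b + star b * c * v + star c * a * star w +
    star c * b * star v + star c * c).re) :
    ‖1 - w‖ ≤ 2 * (‖1 - u‖ + ‖1 - v‖) := by
  set d := 1 - u - v + w
  have hd : ‖d‖ ≤ ‖1 - u‖ + ‖1 - v‖ := by
    rcases eq_or_ne d 0 with h0 | h0
    · rw [h0, norm_zero]; positivity
    set l : ℂ := -(star d / (‖d‖ : ℂ))
    have hl : star l * l = 1 := by
      have hn : (‖d‖ : ℂ) ≠ 0 := by simpa using h0
      simp only [l, star_neg, star_div₀, Complex.star_def, Complex.conj_ofReal, Complex.conj_conj]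
      rw [neg_mul_neg, div_mul_div_comm, Complex.mul_conj, Complex.normSq_eq_norm_sq]
      push_cast
      field_simp
    have hld : (l * d).re = -‖d‖ := by
      have hn : (‖d‖ : ℂ) ≠ 0 := by simpa using h0
      have : l * d = ((-‖d‖ : ℝ) : ℂ) := by
        simp only [l, Complex.star_def]
        rw [neg_mul, div_mul_eq_mul_div, mul_comm, Complex.mul_conj, Complex.normSq_eq_norm_sq]
        push_cast
        field_simp
      rw [this, Complex.ofReal_re]
    have H := h 1 (-(1 + l)) l
    have e : (star (1 : ℂ) * 1 + star (1 : ℂ) * -(1 + l) * u + star (1 : ℂ) * l * w +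
        star (-(1 + l)) * 1 * star u + star (-(1 + l)) * -(1 + l) + star (-(1 + l)) * l * v +
        star l * 1 * star w + star l * -(1 + l) * star v + star l * l) =
        4 - (u + star u) - (v + star v) + (l * d + star (l * d)) := by
      simp only [d, star_one, star_neg, star_add, star_mul', star_sub]
      linear_combination (2 - v - star v) * hl
    rw [e] at H
    simp only [Complex.add_re, Complex.sub_re, Complex.star_def, Complex.conj_re, hld] at H
    have h1 : 1 - u.re ≤ ‖1 - u‖ := by simpa using Complex.re_le_norm (1 - u)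
    have h2 : 1 - v.re ≤ ‖1 - v‖ := by simpa using Complex.re_le_norm (1 - v)
    norm_num at H
    linarith
  calc ‖1 - w‖ = ‖(1 - u) + (1 - v) - d‖ := by congr 1; simp only [d]; ring
    _ ≤ ‖(1 - u) + (1 - v)‖ + ‖d‖ := norm_sub_le _ _
    _ ≤ (‖1 - u‖ + ‖1 - v‖) + (‖1 - u‖ + ‖1 - v‖) := add_le_add (norm_add_le _ _) hd
    _ = _ := by ring

variable [PartialOrder A] [StarOrderedRing A]

/-- If `z ≤ c` wherever `k` vanishes and `k` kills `top`, then `top * z * top ≤ c • 1`. -/
theorem sandwich_le {S : StarSubalgebra ℂ A} [IsClosed (S : Set A)]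
    (hcomm : ∀ x y : S, x * y = y * x) {z k : S} (hz : IsSelfAdjoint z) (hk : IsSelfAdjoint k)
    {c : ℝ} (hc : 0 ≤ c)
    (h : letI : CommCStarAlgebra S := { StarSubalgebra.cstarAlgebra S with mul_comm := hcomm }
      ∀ χ : WeakDual.characterSpace ℂ S, χ k = 0 → (χ z).re ≤ c)
    {top : A} (htop : star top = top) (hn : ‖top‖ ≤ 1) (hkt : (k : A) * top = 0) :
    top * (z : A) * top ≤ c • (1 : A) := by
  let : CommCStarAlgebra S := { StarSubalgebra.cstarAlgebra S with mul_comm := hcomm }
  have hf : Continuous fun t : ℝ => max (t - c) 0 := by fun_prop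
  have hw : ((cfc (fun t : ℝ => max (t - c) 0) z : S) : A) * top = 0 := by
    refine kill hcomm _ k hk (fun χ hχ => ?_) hkt
    rw [char_cfc χ hz _ hf, max_eq_right (by linarith [h χ hχ]), Complex.ofReal_zero]
  rw [coe_cfc z hz _ hf] at hw
  have hzA : IsSelfAdjoint (z : A) := hz.map S.subtype
  have e : (z : A) - cfc (fun t : ℝ => max (t - c) 0) (z : A) =
      cfc (fun t : ℝ => t - max (t - c) 0) (z : A) := by
    rw [cfc_sub (fun t : ℝ => t) _ (z : A) (by fun_prop) hf.continuousOn, cfc_id' ℝ (z : A)]
  have hle : (z : A) - cfc (fun t : ℝ => max (t - c) 0) (z : A) ≤ algebraMap ℝ A c := by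
    rw [e]
    exact cfc_le_algebraMap _ _ _ fun t _ => by linarith [le_max_left (t - c) 0]
  have h1 := star_left_conjugate_le_conjugate hle top
  rw [htop, mul_sub, sub_mul, mul_assoc top (cfc _ _), hw, mul_zero, sub_zero] at h1
  refine h1.trans ?_
  rw [Algebra.algebraMap_eq_smul_one, mul_smul_comm, mul_one, smul_mul_assoc]
  refine smul_le_smul_of_nonneg_left ?_ hc
  rw [← map_one (algebraMap ℝ A),
    ← CStarAlgebra.norm_le_iff_le_algebraMap _ zero_le_one
      (by simpa [htop] using star_mul_self_nonneg top)]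
  exact (norm_mul_le _ _).trans (mul_le_one₀ hn (norm_nonneg _) hn)

/-- The two sandwiched estimates. -/
theorem OpKernel.sandwich [DecidableEq β] {S F F' : Finset β} {T : β → β → A} {top : A}
    (hK : OpKernel S T top) (hF : F ⊆ S) (hF' : F' ⊆ S) (htop : star top = top)
    (hn : ‖top‖ ≤ 1) {p : Polynomial ℝ} {I : ℕ} {δ d : ℝ} (hδ : 0 ≤ δ) (hd : 0 ≤ d)
    (H : ∀ R : β → β → ℂ, GoodOn S R → |cxForm p I R F F - 1| ≤ δ ∧
      cxForm p I R F F - 2 * cxForm p I R F F' + cxForm p I R F' F' ≤ d + δ) :
    top * (opForm p I T F F - 1) * top ≤ δ • (1 : A) ∧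
    top * (1 - opForm p I T F F) * top ≤ δ • (1 : A) ∧
    top * (opForm p I T F F - opForm p I T F F' - opForm p I T F' F + opForm p I T F' F') * top ≤
      (d + δ) • (1 : A) := by
  classical
  let gen : Set A := {w | ∃ x ∈ S, ∃ y ∈ S, w = T x y + T y x ∨
    w = Complex.I • (T y x - T x y)}
  have hgen : CommSA gen := by
    refine ⟨?_, ?_⟩
    · rintro w ⟨x, hx, y, hy, rfl | rfl⟩
      · rw [IsSelfAdjoint, star_add, hK.herm x hx y hy, hK.herm y hy x hx, add_comm]
      · rw [IsSelfAdjoint, star_smul, star_sub, hK.herm x hx y hy, hK.herm y hy x hx,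
          Complex.star_def, Complex.conj_I, neg_smul, ← smul_neg, neg_sub]
    · have hc := hK.comm
      rintro w ⟨x, hx, y, hy, rfl | rfl⟩ w' ⟨x', hx', y', hy', rfl | rfl⟩
      all_goals
        first
          | exact ((hc x hx y hy x' hx' y' hy').add_right (hc x hx y hy y' hy' x' hx')).add_left
              ((hc y hy x hx x' hx' y' hy').add_right (hc y hy x hx y' hy' x' hx'))
          | exact (((hc x hx y hy y' hy' x' hx').sub_right (hc x hx y hy x' hx' y' hy')).add_left
              ((hc y hy x hx y' hy' x' hx').sub_right (hc y hy x hx x' hx' y' hy'))).smul_right _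
          | exact (((hc y hy x hx x' hx' y' hy').add_right (hc y hy x hx y' hy' x' hx')).sub_left
              ((hc x hx y hy x' hx' y' hy').add_right (hc x hx y hy y' hy' x' hx'))).smul_left _
          | exact ((((hc y hy x hx y' hy' x' hx').sub_right (hc y hy x hx x' hx' y' hy')).sub_left
              ((hc x hx y hy y' hy' x' hx').sub_right (hc x hx y hy x' hx' y' hy'))).smul_right
                _).smul_left _
  have hmem : ∀ x ∈ S, ∀ y ∈ S, T x y ∈ Abel gen hgen := fun x hx y hy => by
    have e : T x y = (2 : ℂ)⁻¹ •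
        ((T x y + T y x) + Complex.I • (Complex.I • (T y x - T x y))) := by
      rw [smul_smul, Complex.I_mul_I]
      module
    rw [e]
    exact SMulMemClass.smul_mem _ (add_mem (mem_abel hgen ⟨x, hx, y, hy, .inl rfl⟩)
      (SMulMemClass.smul_mem _ (mem_abel hgen ⟨x, hx, y, hy, .inr rfl⟩)))
  let T' : β → β → Abel gen hgen := fun x y =>
    if h : x ∈ S ∧ y ∈ S then ⟨T x y, hmem x h.1 y h.2⟩ else 0
  have hT' : ∀ x ∈ S, ∀ y ∈ S, (T' x y : A) = T x y := fun x hx y hy => by simp [T', hx, hy]
  have hstar : ∀ x ∈ S, ∀ y ∈ S, star (T' x y) = T' y x := fun x hx y hy => Subtype.ext (by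
    simp only [StarMemClass.coe_star, hT' x hx y hy, hT' y hy x hx, hK.herm x hx y hy])
  let k : Abel gen hgen := ∑ x ∈ S, (1 - T' x x)
  have hk : IsSelfAdjoint k := isSelfAdjoint_sum _ fun x hx => by
    rw [IsSelfAdjoint, star_sub, star_one, hstar x hx x hx]
  have hkt : (k : A) * top = 0 := by
    simp only [k, AddSubmonoidClass.coe_finsetSum, sum_mul]
    refine sum_eq_zero fun x hx => ?_
    push_cast
    rw [hT' x hx x hx, sub_mul, one_mul, hK.diag x hx, sub_self]
  have good : ∀ χ : WeakDual.characterSpace ℂ (Abel gen hgen), χ k = 0 →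
      GoodOn S fun x y => χ (T' x y) := by
    intro χ hχ
    have hh : ∀ x ∈ S, ∀ y ∈ S, χ (T' y x) = star (χ (T' x y)) := fun x hx y hy => by
      rw [← map_star, hstar x hx y hy]
    have hle : ∀ x ∈ S, ∀ y ∈ S, ‖χ (T' x y)‖ ≤ 1 := fun x hx y hy =>
      (char_norm_le χ _).trans (by
        show ‖((T' x y : Abel gen hgen) : A)‖ ≤ 1
        rw [hT' x hx y hy]
        exact hK.norm_le x hx y hy)
    have hdiag : ∀ x ∈ S, χ (T' x x) = 1 := by
      have h0 : ∀ x ∈ S, 0 ≤ (χ (1 - T' x x)).re := fun x hx => by
        rw [map_sub, map_one, Complex.sub_re, Complex.one_re, sub_nonneg]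
        exact (Complex.re_le_norm _).trans (hle x hx x hx)
      simp only [k, map_sum] at hχ
      have h1 := (sum_eq_zero_iff_of_nonneg h0).1 (by rw [← Complex.re_sum, hχ, Complex.zero_re])
      intro x hx
      have h2 := h1 x hx
      rw [map_sub, map_one, Complex.sub_re, Complex.one_re, sub_eq_zero] at h2
      rw [char_re χ (show IsSelfAdjoint (T' x x) from hstar x hx x hx), ← h2, Complex.ofReal_one]
    refine ⟨hdiag, hh, hle, fun x hx y hy z hz => triangle_of_gram fun a b c => ?_⟩
    obtain ⟨r, hr⟩ := hK.gram x hx y hy z hz a b c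
    set g : Abel gen hgen := (star a * a) • T' x x + (star a * b) • T' x y +
      (star a * c) • T' x z + (star b * a) • T' y x + (star b * b) • T' y y +
      (star b * c) • T' y z + (star c * a) • T' z x + (star c * b) • T' z y +
      (star c * c) • T' z z with hg
    have hr' : ‖(r : ℂ) - χ g‖ ≤ r := by
      have h3 : ‖(r : ℂ) • (1 : Abel gen hgen) - g‖ ≤ r := by
        show ‖(((r : ℂ) • (1 : Abel gen hgen) - g : Abel gen hgen) : A)‖ ≤ r
        convert hr using 2
        simp only [hg, AddSubgroupClass.coe_sub, AddMemClass.coe_add, SetLike.val_smul,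
          OneMemClass.coe_one, hT' x hx x hx, hT' x hx y hy, hT' x hx z hz, hT' y hy x hx,
          hT' y hy y hy, hT' y hy z hz, hT' z hz x hx, hT' z hz y hy, hT' z hz z hz]
      have h4 := (char_norm_le χ _).trans h3
      rwa [map_sub, map_smul, map_one, smul_eq_mul, mul_one] at h4
    have h5 := (Complex.re_le_norm ((r : ℂ) - χ g)).trans hr'
    rw [Complex.sub_re, Complex.ofReal_re] at h5
    have h6 : 0 ≤ (χ g).re := by linarith
    convert h6 using 2
    simp only [hg, map_add, map_smul, smul_eq_mul, hdiag x hx, hdiag y hy, hdiag z hz,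
      hh x hx y hy, hh x hx z hz, hh y hy z hz, mul_one]
  have hval : ∀ {B B' : Finset β}, B ⊆ S → B' ⊆ S →
      ((opForm p I T' B B' : Abel gen hgen) : A) = opForm p I T B B' := fun {B B'} hB hB' => by
    rw [show ((opForm p I T' B B' : Abel gen hgen) : A) =
      (Abel gen hgen).subtype (opForm p I T' B B') from rfl, map_opForm]
    exact opForm_congr hT' p I hB hB'
  have hre : ∀ (χ : WeakDual.characterSpace ℂ (Abel gen hgen)) (B B' : Finset β),
      (χ (opForm p I T' B B')).re = cxForm p I (fun x y => χ (T' x y)) B B' := fun χ B B' => by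
    rw [map_opForm, opForm_complex_re]
  have key : ∀ (z : Abel gen hgen) (c : ℝ), 0 ≤ c →
      (∀ χ : WeakDual.characterSpace ℂ (Abel gen hgen), χ k = 0 → (χ z).re ≤ c) →
      top * (symPart z : A) * top ≤ c • (1 : A) := by
    intro z c hc hz
    exact sandwich_le (fun x y => mul_comm x y) (isSelfAdjoint_symPart z) hk hc (fun χ hχ => by
      rw [map_symPart, symPart_complex, Complex.ofReal_re]; exact hz χ hχ) htop hn hkt
  have hsymA : ∀ z : Abel gen hgen, (symPart z : A) = symPart (z : A) := fun z =>
    map_symPart (Abel gen hgen).subtype z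
  have hopsa : ∀ B : Finset β, B ⊆ S → star (opForm p I T B B) = opForm p I T B B := by
    intro B hB
    simp only [opForm, opPair, star_smul, star_trivial, star_sum, star_mul,
      (isSelfAdjoint_opU _ _ _ _ _).star_eq]
    congr 1
    refine sum_congr rfl fun i _ => ?_
    rw [sum_comm]
    refine sum_congr rfl fun x hx => sum_congr rfl fun y hy => ?_
    rw [cesaro, star_smul, star_trivial, star_sum]
    simp only [star_pow, hK.herm y (hB hy) x (hB hx), ← mul_assoc, cesaro]
  have hcross : star (opForm p I T F F') = opForm p I T F' F := by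
    simp only [opForm, opPair, star_smul, star_trivial, star_sum, star_mul,
      (isSelfAdjoint_opU _ _ _ _ _).star_eq]
    congr 1
    refine sum_congr rfl fun i _ => ?_
    rw [sum_comm]
    refine sum_congr rfl fun x hx => sum_congr rfl fun y hy => ?_
    rw [cesaro, star_smul, star_trivial, star_sum]
    simp only [star_pow, hK.herm y (hF hy) x (hF' hx), ← mul_assoc, cesaro]
  have hfix : ∀ w : A, star w = w → symPart w = w := fun w hw => by
    rw [symPart, hw, ← two_smul ℝ w, smul_smul, inv_mul_cancel₀ two_ne_zero, one_smul]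
  refine ⟨?_, ?_, ?_⟩
  · have := key (opForm p I T' F F - 1) δ hδ fun χ hχ => by
      rw [map_sub, map_one, Complex.sub_re, hre, Complex.one_re]
      exact (abs_le.1 (H _ (good χ hχ)).1).2
    rwa [hsymA, AddSubgroupClass.coe_sub, hval hF hF, OneMemClass.coe_one,
      hfix _ (by rw [star_sub, hopsa F hF, star_one])] at this
  · have := key (1 - opForm p I T' F F) δ hδ fun χ hχ => by
      rw [map_sub, map_one, Complex.sub_re, hre, Complex.one_re]
      linarith [(abs_le.1 (H _ (good χ hχ)).1).1]
    rwa [hsymA, AddSubgroupClass.coe_sub, hval hF hF, OneMemClass.coe_one,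
      hfix _ (by rw [star_sub, hopsa F hF, star_one])] at this
  · have := key (opForm p I T' F F - opForm p I T' F F' - opForm p I T' F' F + opForm p I T' F' F')
      (d + δ) (by linarith) fun χ hχ => by
      rw [map_add, map_sub, map_sub, Complex.add_re, Complex.sub_re, Complex.sub_re, hre, hre, hre,
        hre, cxForm_comm (good χ hχ) hF hF' p I]
      linarith [(H _ (good χ hχ)).2]
    rwa [hsymA, AddMemClass.coe_add, AddSubgroupClass.coe_sub, AddSubgroupClass.coe_sub,
      hval hF hF, hval hF hF', hval hF' hF, hval hF' hF',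
      hfix _ (by
        rw [star_add, star_sub, star_sub, hopsa F hF, hopsa F' hF', hcross, ← hcross, star_star]
        abel)] at this

end

end Vale.Agent.P095.Elem.Absorb
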