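import Vale.Agent.P095.Elem.Defs

/-!
# P095, elementary amenable groups: ordered products of commuting families
-/

namespace Vale.Agent.P095.Elem

open VAgent.P101
open scoped CStarAlgebra

noncomputable section

variable {F : Type*} [CStarAlgebra F]

theorem oprodF_zero (f : Fin 0 → F) : oprodF f = 1 := by simp [oprodF]

theorem oprodF_succ {M : ℕ} (f : Fin (M + 1) → F) :
    oprodF f = f 0 * oprodF (fun i => f i.succ) := by
  simp [oprodF, List.ofFn_succ]

/-- Anything commuting with all factors commutes with the product. -/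
theorem oprodF_commute : ∀ {M : ℕ} (f : Fin M → F) {x : F}, (∀ l, Commute x (f l)) →
    Commute x (oprodF f)
  | 0, f, x, _ => by rw [oprodF_zero]; exact Commute.one_right x
  | M + 1, f, x, h => by
    rw [oprodF_succ]
    exact (h 0).mul_right (oprodF_commute _ fun i => h i.succ)

/-- Products of families commuting across different indices multiply factorwise. -/
theorem oprodF_mul : ∀ {M : ℕ} (f g : Fin M → F), (∀ l l', l ≠ l' → Commute (g l) (f l')) →
    oprodF f * oprodF g = oprodF fun l => f l * g l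
  | 0, f, g, _ => by simp [oprodF_zero]
  | M + 1, f, g, h => by
    rw [oprodF_succ, oprodF_succ, oprodF_succ,
      ← oprodF_mul (fun i => f i.succ) (fun i => g i.succ) fun l l' hll =>
        h l.succ l'.succ fun e => hll (Fin.succ_injective _ e)]
    have hc : Commute (g 0) (oprodF fun i => f i.succ) :=
      oprodF_commute _ fun i => h 0 i.succ (Fin.succ_ne_zero i).symm
    rw [mul_assoc (f 0), ← mul_assoc (oprodF fun i => f i.succ), ← hc.eq]
    simp only [mul_assoc]

theorem oprodF_one (M : ℕ) : oprodF (fun _ : Fin M => (1 : F)) = 1 := by simp [oprodF]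

theorem oprodF_congr {M : ℕ} {f g : Fin M → F} (h : ∀ l, f l = g l) : oprodF f = oprodF g :=
  congrArg oprodF (funext h)

theorem oprodF_eq_zero : ∀ {M : ℕ} (f : Fin M → F) (l : Fin M), f l = 0 → oprodF f = 0
  | 0, _, l, _ => l.elim0
  | M + 1, f, l, h => by
    rw [oprodF_succ]
    rcases Fin.eq_zero_or_eq_succ l with rfl | ⟨k, rfl⟩
    · rw [h, zero_mul]
    · rw [oprodF_eq_zero _ k h, mul_zero]

theorem oprodF_single : ∀ {M : ℕ} (l : Fin M) (x : F),
    oprodF (fun k => if k = l then x else 1) = x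
  | 0, l, _ => l.elim0
  | M + 1, l, x => by
    rw [oprodF_succ]
    rcases Fin.eq_zero_or_eq_succ l with rfl | ⟨k, rfl⟩
    · simp [Fin.succ_ne_zero, oprodF_one]
    · simp [(Fin.succ_ne_zero k).symm, oprodF_single k x]

theorem oprodF_star : ∀ {M : ℕ} (f : Fin M → F), (∀ l l', l ≠ l' → Commute (f l) (f l')) →
    star (oprodF f) = oprodF fun l => star (f l)
  | 0, f, _ => by simp [oprodF_zero]
  | M + 1, f, h => by
    rw [oprodF_succ, oprodF_succ, star_mul,
      oprodF_star _ fun l l' hll => h l.succ l'.succ fun e => hll (Fin.succ_injective _ e)]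
    have hc : Commute (star (f 0)) (oprodF fun i => star (f i.succ)) :=
      oprodF_commute _ fun i => (h 0 i.succ (Fin.succ_ne_zero i).symm).star_star
    exact hc.eq.symm

theorem oprodF_map {E : Type*} [CStarAlgebra E] {Φ : Type*} [FunLike Φ F E] [MonoidHomClass Φ F E]
    (φ : Φ) : ∀ {M : ℕ} (f : Fin M → F), φ (oprodF f) = oprodF fun l => φ (f l)
  | 0, f => by simp [oprodF_zero]
  | M + 1, f => by rw [oprodF_succ, oprodF_succ, map_mul, oprodF_map φ]

theorem norm_oprodF_le : ∀ {M : ℕ} (f : Fin M → F), (∀ l, ‖f l‖ ≤ 1) → ‖oprodF f‖ ≤ 1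
  | 0, f, _ => by
    rw [oprodF_zero]
    rcases subsingleton_or_nontrivial F with hF | hF
    · simp [Subsingleton.elim (1 : F) 0]
    · exact le_of_eq CStarRing.norm_one
  | M + 1, f, h => by
    rw [oprodF_succ]
    exact (norm_mul_le _ _).trans
      (mul_le_one₀ (h 0) (norm_nonneg _) (norm_oprodF_le _ fun i => h i.succ))

theorem norm_oprodF_sub_le : ∀ {M : ℕ} (f g : Fin M → F), (∀ l, ‖f l‖ ≤ 1) → (∀ l, ‖g l‖ ≤ 1) →
    ‖oprodF f - oprodF g‖ ≤ ∑ l, ‖f l - g l‖
  | 0, f, g, _, _ => by simp [oprodF_zero]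
  | M + 1, f, g, hf, hg => by
    rw [oprodF_succ, oprodF_succ, Fin.sum_univ_succ,
      show f 0 * oprodF (fun i => f i.succ) - g 0 * oprodF (fun i => g i.succ) =
        (f 0 - g 0) * oprodF (fun i => f i.succ) +
          g 0 * (oprodF (fun i => f i.succ) - oprodF fun i => g i.succ) by noncomm_ring]
    refine (norm_add_le _ _).trans (add_le_add ?_ ?_)
    · refine (norm_mul_le _ _).trans ?_
      exact mul_le_of_le_one_right (norm_nonneg _) (norm_oprodF_le _ fun i => hf i.succ)
    · refine (norm_mul_le _ _).trans ?_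
      exact (mul_le_of_le_one_left (norm_nonneg _) (hg 0)).trans
        (norm_oprodF_sub_le _ _ (fun i => hf i.succ) fun i => hg i.succ)

section order

variable [PartialOrder F] [StarOrderedRing F]

theorem oprodF_nonneg : ∀ {M : ℕ} (f : Fin M → F), (∀ l, 0 ≤ f l) →
    (∀ l l', Commute (f l) (f l')) → 0 ≤ oprodF f
  | 0, f, _, _ => by rw [oprodF_zero]; exact zero_le_one
  | M + 1, f, h0, hc => by
    rw [oprodF_succ]
    exact (oprodF_commute _ fun i => hc 0 i.succ).mul_nonneg (h0 0)
      (oprodF_nonneg _ (fun i => h0 i.succ) fun l l' => hc l.succ l'.succ)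

end order

/-- The product over a subset of the indices. -/
def subProd {M : ℕ} (σ : Finset (Fin M)) (f : Fin M → F) : F :=
  oprodF fun l => if l ∈ σ then f l else 1

theorem subProd_empty {M : ℕ} (f : Fin M → F) : subProd ∅ f = 1 := by
  simp [subProd, oprodF_one]

theorem subProd_insert {M : ℕ} (σ : Finset (Fin M)) (f : Fin M → F) {l : Fin M} (hl : l ∉ σ)
    (h : ∀ k k', Commute (f k) (f k')) :
    subProd σ f * f l = subProd (insert l σ) f := by
  conv_lhs => rw [← oprodF_single l (f l)]
  unfold subProd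
  rw [oprodF_mul]
  · refine oprodF_congr fun k => ?_
    by_cases hk : k = l
    · subst hk; simp [hl]
    · simp [hk]
  · intro k k' _
    split_ifs <;> first | exact h _ _ | exact Commute.one_left _ | exact Commute.one_right _

theorem norm_subProd_le {M : ℕ} (σ : Finset (Fin M)) (f : Fin M → F) (h : ∀ l, ‖f l‖ ≤ 1)
    (h1 : ‖(1 : F)‖ ≤ 1) : ‖subProd σ f‖ ≤ 1 :=
  norm_oprodF_le _ fun l => by split_ifs; exacts [h l, h1]

end

end Vale.Agent.P095.Elem
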