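import Vale.Agent.P095.Gamma.Scalar

/-!
# P095, amenable groups: the multiscale estimate for complex unit kernels

For a complex kernel `T` of unit vectors the kernel at scale `i` is the real part of the mean of
`T ^ j` over `2 ^ i ≤ j < 2 ^ (i + 1)`. At all but boundedly many scales it is close to the kernel of
an equivalence relation.
-/

open Finset
open scoped symmDiff

namespace Vale.Agent.P095.Elem.Absorb

open VAgent.P095.Gamma

noncomputable section

universe u

/-- The mean of the powers in the window of the scale `i`. -/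
def cesaro {A : Type*} [Ring A] [Module ℝ A] (i : ℕ) (z : A) : A :=
  ((2 : ℝ) ^ i)⁻¹ • ∑ j ∈ Ico (2 ^ i) (2 ^ (i + 1)), z ^ j

theorem card_window (i : ℕ) : (Ico (2 ^ i) (2 ^ (i + 1))).card = 2 ^ i := by
  rw [Nat.card_Ico, pow_succ]
  omega

theorem norm_cesaro_sub_one_le {z : ℂ} (hz : ‖z‖ ≤ 1) (i : ℕ) :
    ‖cesaro i z - 1‖ ≤ 2 * ((2 : ℝ) ^ i * ‖1 - z‖) := by
  have hpow : ∀ j : ℕ, ‖z ^ j - 1‖ ≤ (j : ℝ) * ‖1 - z‖ := by
    intro j
    induction j with
    | zero => simp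
    | succ j ih =>
      rw [show z ^ (j + 1) - 1 = z ^ j * (z - 1) + (z ^ j - 1) by ring]
      refine (norm_add_le _ _).trans ?_
      rw [norm_mul, norm_pow, ← norm_sub_rev 1 z]
      push_cast
      nlinarith [pow_le_one₀ (n := j) (norm_nonneg z) hz, norm_nonneg (1 - z)]
  have e : cesaro i z - 1 = ((2 : ℝ) ^ i)⁻¹ • ∑ j ∈ Ico (2 ^ i) (2 ^ (i + 1)), (z ^ j - 1) := by
    rw [cesaro, sum_sub_distrib, smul_sub, sum_const, card_window, Complex.real_smul,
      Complex.real_smul, nsmul_eq_mul]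
    push_cast
    field_simp
  rw [e, norm_smul, Real.norm_of_nonneg (by positivity), inv_mul_le_iff₀ (by positivity)]
  refine (norm_sum_le _ _).trans ((sum_le_card_nsmul _ _ (2 * ((2 : ℝ) ^ i) * ‖1 - z‖)
    fun j hj => (hpow j).trans ?_).trans_eq ?_)
  · have h1 : (j : ℝ) ≤ 2 * 2 ^ i := by
      have := (mem_Ico.1 hj).2.le
      rw [pow_succ'] at this
      exact_mod_cast this
    exact mul_le_mul_of_nonneg_right h1 (norm_nonneg _)
  · rw [card_window, nsmul_eq_mul]
    push_cast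
    ring

theorem norm_cesaro_mul_le {z : ℂ} (hz : ‖z‖ ≤ 1) (i : ℕ) :
    ((2 : ℝ) ^ i * ‖1 - z‖) * ‖cesaro i z‖ ≤ 2 := by
  have e : (∑ j ∈ Ico (2 ^ i) (2 ^ (i + 1)), z ^ j) * (z - 1) = z ^ 2 ^ (i + 1) - z ^ 2 ^ i :=
    geom_sum_Ico_mul z (Nat.pow_le_pow_right two_pos (Nat.le_succ i))
  calc ((2 : ℝ) ^ i * ‖1 - z‖) * ‖cesaro i z‖
      = ‖(∑ j ∈ Ico (2 ^ i) (2 ^ (i + 1)), z ^ j) * (z - 1)‖ := by
        rw [cesaro, norm_smul, Real.norm_of_nonneg (by positivity), norm_mul, norm_sub_rev z 1]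
        field_simp
    _ ≤ 2 := by
        rw [e]
        refine (norm_sub_le _ _).trans ?_
        rw [norm_pow, norm_pow]
        linarith [pow_le_one₀ (n := 2 ^ (i + 1)) (norm_nonneg z) hz,
          pow_le_one₀ (n := 2 ^ i) (norm_nonneg z) hz]

theorem abs_cesaro_re_le {z : ℂ} (hz : ‖z‖ ≤ 1) (i : ℕ) : |(cesaro i z).re| ≤ 1 := by
  refine (Complex.abs_re_le_norm _).trans ?_
  rw [cesaro, norm_smul, Real.norm_of_nonneg (by positivity), inv_mul_le_iff₀ (by positivity),
    mul_one]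
  refine (norm_sum_le _ _).trans ((sum_le_card_nsmul _ _ 1 fun j _ => ?_).trans_eq ?_)
  · rw [norm_pow]
    exact pow_le_one₀ (norm_nonneg _) hz
  · rw [card_window, nsmul_eq_mul]
    simp

variable {β : Type*}

/-- The kernel at scale `i`. -/
def cxKer (i : ℕ) (T : β → β → ℂ) (x y : β) : ℝ := (cesaro i (T x y)).re

/-- The pairing averaged over the scales `1, 2, …, 2 ^ (I - 1)`. -/
def cxForm (p : Polynomial ℝ) (I : ℕ) (T : β → β → ℂ) (F F' : Finset β) : ℝ :=
  (I : ℝ)⁻¹ * ∑ i ∈ range I, qform p (cxKer i T) F F'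

/-- On `S`: diagonal one, hermitian, bounded by one, triangle inequality of unit vectors. -/
structure GoodOn (S : Finset β) (T : β → β → ℂ) : Prop where
  diag : ∀ x ∈ S, T x x = 1
  herm : ∀ x ∈ S, ∀ y ∈ S, T y x = star (T x y)
  norm_le : ∀ x ∈ S, ∀ y ∈ S, ‖T x y‖ ≤ 1
  triangle : ∀ x ∈ S, ∀ y ∈ S, ∀ z ∈ S, ‖1 - T x z‖ ≤ 2 * (‖1 - T x y‖ + ‖1 - T y z‖)

section kernels

variable {p : Polynomial ℝ} {P : ℝ} (hP : ∀ t ∈ Set.Icc (-1 : ℝ) 1, |p.eval t| ≤ P)
  {S F F' : Finset β} (hF : F ⊆ S) (hF' : F' ⊆ S) {Φ Ψ : β → β → ℝ}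
  (hΦ : ∀ x ∈ S, ∀ y ∈ S, |Φ x y| ≤ 1)

include hΦ in
theorem abs_deg_le (hF : F ⊆ S) {x : β} (hx : x ∈ S) : deg Φ F x ∈ Set.Icc (-1 : ℝ) 1 := by
  rw [Set.mem_Icc, ← abs_le, deg, abs_mul, abs_of_nonneg (by positivity : (0 : ℝ) ≤ (F.card : ℝ)⁻¹)]
  rcases F.eq_empty_or_nonempty with rfl | hne
  · simp
  · rw [inv_mul_le_iff₀ (by exact_mod_cast hne.card_pos), mul_one]
    refine (abs_sum_le_sum_abs _ _).trans ?_
    simpa using sum_le_card_nsmul F (fun y => |Φ x y|) 1 fun y hy => hΦ x hx y (hF hy)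

include hP hF hF' hΦ in
theorem abs_qform_le : |qform p Φ F F'| ≤ P ^ 2 := by
  have hP0 : 0 ≤ P := (abs_nonneg _).trans (hP 0 (by simp))
  refine avg_abs_le (sq_nonneg P) fun x hx y hy => ?_
  rw [abs_mul, abs_mul]
  calc _ ≤ P * P * 1 := by
        gcongr
        exacts [hP _ (abs_deg_le hΦ hF (hF hx)), hP _ (abs_deg_le hΦ hF' (hF' hy)),
          hΦ x (hF hx) y (hF' hy)]
    _ = P ^ 2 := by ring

include hP hF hF' hΦ in
theorem qform_near_on {w η : ℝ}
    (hw : ∀ s ∈ Set.Icc (-1 : ℝ) 1, ∀ t ∈ Set.Icc (-1 : ℝ) 1, |s - t| ≤ η →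
      |p.eval s - p.eval t| ≤ w)
    (hΨ : ∀ x ∈ S, ∀ y ∈ S, |Ψ x y| ≤ 1) (hη : 0 ≤ η)
    (hd : ∀ x ∈ S, ∀ y ∈ S, |Φ x y - Ψ x y| ≤ η) :
    |qform p Φ F F' - qform p Ψ F F'| ≤ 2 * P * w + P ^ 2 * η := by
  have hP0 : 0 ≤ P := (abs_nonneg _).trans (hP 0 (by simp))
  have hw0 : 0 ≤ w := (abs_nonneg _).trans (hw 0 (by simp) 0 (by simp) (by simpa using hη))
  have hdeg : ∀ A : Finset β, A ⊆ S → ∀ x ∈ S,
      |p.eval (deg Φ A x) - p.eval (deg Ψ A x)| ≤ w := fun A hA x hx =>
    hw _ (abs_deg_le hΦ hA hx) _ (abs_deg_le hΨ hA hx) (by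
      rw [deg, deg, ← mul_sub, ← Finset.sum_sub_distrib]
      rcases A.eq_empty_or_nonempty with rfl | hne
      · simpa using hη
      · have hc : (0 : ℝ) < A.card := by exact_mod_cast hne.card_pos
        rw [abs_mul, abs_of_pos (inv_pos.2 hc), inv_mul_le_iff₀ hc]
        refine (abs_sum_le_sum_abs _ _).trans ?_
        simpa using sum_le_card_nsmul A (fun y => |Φ x y - Ψ x y|) η fun y hy => hd x hx y (hA hy))
  rw [qform, qform, ← mul_sub, ← Finset.sum_sub_distrib]
  simp only [← Finset.sum_sub_distrib]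
  refine avg_abs_le (by positivity) fun x hx y hy => ?_
  set a := p.eval (deg Φ F x)
  set a' := p.eval (deg Ψ F x)
  set b := p.eval (deg Φ F' y)
  set b' := p.eval (deg Ψ F' y)
  have e : a * b * Φ x y - a' * b' * Ψ x y =
      (a - a') * b * Φ x y + a' * (b - b') * Φ x y + a' * b' * (Φ x y - Ψ x y) := by ring
  rw [e]
  refine (abs_add_three _ _ _).trans ?_
  rw [abs_mul, abs_mul, abs_mul, abs_mul, abs_mul, abs_mul]
  calc |a - a'| * |b| * |Φ x y| + |a'| * |b - b'| * |Φ x y| + |a'| * |b'| * |Φ x y - Ψ x y|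
      ≤ w * P * 1 + P * w * 1 + P * P * η := by
        gcongr
        exacts [hdeg F hF x (hF hx), hP _ (abs_deg_le hΦ hF' (hF' hy)), hΦ x (hF hx) y (hF' hy),
          hP _ (abs_deg_le hΨ hF (hF hx)), hdeg F' hF' y (hF' hy), hΦ x (hF hx) y (hF' hy),
          hP _ (abs_deg_le hΨ hF (hF hx)), hP _ (abs_deg_le hΨ hF' (hF' hy)),
          hd x (hF hx) y (hF' hy)]
    _ = 2 * P * w + P ^ 2 * η := by ring

end kernels

/-- A pair is ambiguous at boundedly many scales only. -/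
theorem card_ambiguous_le {η : ℝ} (hη : 0 < η) {L : ℕ} (hL : 1 ≤ η ^ 2 * 2 ^ L) {a : ℝ}
    (ha : 0 ≤ a) (I : ℕ) :
    ((range I).filter fun i => η < (2 : ℝ) ^ i * a ∧ (2 : ℝ) ^ i * a < η⁻¹).card ≤ L := by
  rcases ((range I).filter fun i => η < (2 : ℝ) ^ i * a ∧ (2 : ℝ) ^ i * a < η⁻¹).eq_empty_or_nonempty
    with h | h
  · simp [h]
  · set i₀ := Finset.min' _ h with hi₀
    refine (card_le_card (t := Ico i₀ (i₀ + L)) fun j hj => ?_).trans (by simp)
    rw [mem_Ico]
    refine ⟨min'_le _ _ hj, ?_⟩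
    by_contra! hlt
    obtain ⟨_, hlo, _⟩ := mem_filter.1 (min'_mem _ h)
    obtain ⟨_, _, hhi⟩ := mem_filter.1 hj
    rw [← hi₀] at hlo
    refine absurd hhi (not_lt.2 ?_)
    calc η⁻¹ ≤ η * 2 ^ L := by
          rw [inv_le_iff_one_le_mul₀ hη]
          linarith
      _ ≤ (2 : ℝ) ^ i₀ * a * 2 ^ L := mul_le_mul_of_nonneg_right hlo.le (by positivity)
      _ = (2 : ℝ) ^ (i₀ + L) * a := by rw [pow_add]; ring
      _ ≤ (2 : ℝ) ^ j * a := mul_le_mul_of_nonneg_right
          (pow_le_pow_right₀ one_le_two hlt) ha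

/-- The multiscale estimate. -/
theorem exists_cxForm (N : ℕ) (hN : 1 ≤ N) :
    ∃ p : Polynomial ℝ, ∀ (m : ℕ) (δ : ℝ), 0 < δ → ∃ I : ℕ, 1 ≤ I ∧
      ∀ (β : Type u) [DecidableEq β] (S : Finset β), S.card ≤ m →
        ∀ T : β → β → ℂ, GoodOn S T → ∀ F F' : Finset β, F ⊆ S → F' ⊆ S →
          F.card = N → F'.card = N →
          |cxForm p I T F F - 1| ≤ δ ∧
          cxForm p I T F F - 2 * cxForm p I T F F' + cxForm p I T F' F' ≤
            ((F ∆ F').card : ℝ) / N + δ := by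
  classical
  have hN0 : (0 : ℝ) < N := by exact_mod_cast hN
  have hinj : Set.InjOn (fun j : ℕ => (j : ℝ) / N) (Finset.Icc 1 N : Set ℕ) := by
    intro a _ b _ h
    simpa [div_left_inj' hN0.ne'] using h
  let p : Polynomial ℝ := Lagrange.interpolate (Finset.Icc 1 N) (fun j : ℕ => (j : ℝ) / N)
    fun j => Real.sqrt ((N : ℝ) / j)
  have hp : ∀ j : ℕ, 1 ≤ j → j ≤ N → p.eval ((j : ℝ) / N) = Real.sqrt ((N : ℝ) / j) :=
    fun j h1 h2 => Lagrange.eval_interpolate_at_node _ hinj (Finset.mem_Icc.2 ⟨h1, h2⟩)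
  refine ⟨p, fun m δ hδ => ?_⟩
  obtain ⟨P, hP⟩ : ∃ P, ∀ t ∈ Set.Icc (-1 : ℝ) 1, |p.eval t| ≤ P :=
    isCompact_Icc.exists_bound_of_continuousOn (p.continuous.continuousOn)
  have hP0 : 0 ≤ P := (abs_nonneg _).trans (hP 0 (by simp))
  obtain ⟨e, he, hue⟩ := Metric.uniformContinuousOn_iff.1
    (isCompact_Icc.uniformContinuousOn_of_continuous (p.continuous.continuousOn (s := Set.Icc (-1) 1)))
    (δ / (32 * (P + 1))) (by positivity)
  let η := min (1 / 10 : ℝ) (min (e / 4) (δ / (32 * (P ^ 2 + 1))))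
  have hη : 0 < η := by positivity
  have hη1 : η ≤ 1 / 10 := min_le_left _ _
  obtain ⟨L, hL⟩ : ∃ L : ℕ, 1 ≤ η ^ 2 * 2 ^ L := by
    obtain ⟨L, hL⟩ := pow_unbounded_of_one_lt (η ^ 2)⁻¹ (by norm_num : (1 : ℝ) < 2)
    refine ⟨L, ?_⟩
    rw [inv_lt_iff_one_lt_mul₀' (by positivity)] at hL
    exact hL.le
  obtain ⟨I, hI⟩ := exists_nat_ge (max 1 (((m : ℝ) * m * L) * (4 * P ^ 2 + 1) * (2 / δ)))
  have hI1 : (1 : ℝ) ≤ I := (le_max_left _ _).trans hI
  have hI2 : ((m : ℝ) * m * L) * (4 * P ^ 2 + 1) ≤ I * (δ / 2) := by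
    have := (le_max_right _ _).trans hI
    calc ((m : ℝ) * m * L) * (4 * P ^ 2 + 1)
        = ((m : ℝ) * m * L) * (4 * P ^ 2 + 1) * (2 / δ) * (δ / 2) := by field_simp
      _ ≤ I * (δ / 2) := by gcongr
  refine ⟨I, by exact_mod_cast hI1, fun β _ S hS T hT F F' hFS hF'S hF hF' => ?_⟩
  let ρ : ℕ → β → β → ℝ := fun i x y => (2 : ℝ) ^ i * ‖1 - T x y‖
  let good : ℕ → Prop := fun i => ∀ x ∈ S, ∀ y ∈ S, ρ i x y ≤ η ∨ η⁻¹ ≤ ρ i x y
  have hbad : ((range I).filter fun i => ¬ good i).card ≤ m * m * L := by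
    calc ((range I).filter fun i => ¬ good i).card
        ≤ ((S ×ˢ S).biUnion fun z => (range I).filter fun i =>
            η < ρ i z.1 z.2 ∧ ρ i z.1 z.2 < η⁻¹).card := by
          refine card_le_card fun i hi => ?_
          obtain ⟨hi, hg⟩ := mem_filter.1 hi
          simp only [good, not_forall, not_or, not_le] at hg
          obtain ⟨x, hx, y, hy, h⟩ := hg
          exact mem_biUnion.2 ⟨(x, y), mem_product.2 ⟨hx, hy⟩, mem_filter.2 ⟨hi, h⟩⟩
      _ ≤ (S ×ˢ S).card * L := card_biUnion_le_card_mul _ _ _ fun z _ =>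
          card_ambiguous_le hη hL (norm_nonneg _) I
      _ ≤ m * m * L := by rw [card_product]; gcongr
  let Q : ℕ → Finset β → Finset β → ℝ := fun i A B => qform p (cxKer i T) A B
  have hK : ∀ i, ∀ x ∈ S, ∀ y ∈ S, |cxKer i T x y| ≤ 1 := fun i x hx y hy =>
    abs_cesaro_re_le (hT.norm_le x hx y hy) i
  have hQb : ∀ i A B, A ⊆ S → B ⊆ S → |Q i A B| ≤ P ^ 2 := fun i A B hA hB =>
    abs_qform_le hP hA hB (hK i)
  have hscale : ∀ i, (|Q i F F - 1| ≤ (if good i then δ / 2 else 4 * P ^ 2 + 1)) ∧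
      Q i F F - 2 * Q i F F' + Q i F' F' ≤
        ((F ∆ F').card : ℝ) / N + (if good i then δ / 2 else 4 * P ^ 2 + 1) := by
    intro i
    have hΔ : (0 : ℝ) ≤ ((F ∆ F').card : ℝ) / N := by positivity
    by_cases hg : good i
    · rw [if_pos hg]
      let r : β → β → Prop := fun x y => x = y ∨ (x ∈ S ∧ y ∈ S ∧ ρ i x y ≤ η)
      have hr : Equivalence r := by
        refine ⟨fun x => .inl rfl, ?_, ?_⟩
        · rintro x y (rfl | ⟨hx, hy, h⟩)
          · exact .inl rfl
          · refine .inr ⟨hy, hx, ?_⟩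
            simp only [ρ] at h ⊢
            rwa [hT.herm x hx y hy, show 1 - star (T x y) = star (1 - T x y) by simp, norm_star]
        · rintro x y z (rfl | ⟨hx, hy, h1⟩) (rfl | ⟨hy', hz, h2⟩)
          · exact .inl rfl
          · exact .inr ⟨hy', hz, h2⟩
          · exact .inr ⟨hx, hy, h1⟩
          · refine .inr ⟨hx, hz, (hg x hx z hz).resolve_right fun h3 => ?_⟩
            have h4 := mul_le_mul_of_nonneg_left (hT.triangle x hx y hy z hz)
              (by positivity : (0 : ℝ) ≤ (2 : ℝ) ^ i)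
            simp only [ρ] at h1 h2 h3
            have h5 : (10 : ℝ) ≤ η⁻¹ := by
              rw [le_inv_comm₀ (by norm_num) hη]
              linarith
            linarith
      have hnear : ∀ A B : Finset β, A ⊆ S → B ⊆ S → |Q i A B -
          qform p (fun x y => if r x y then (1 : ℝ) else 0) A B| ≤ δ / 8 := by
        intro A B hA hB
        refine (qform_near_on hP hA hB (hK i) (w := δ / (32 * (P + 1))) (η := 2 * η) ?_
          (fun x _ y _ => by split_ifs <;> norm_num) (by positivity) ?_).trans ?_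
        · intro s hs t ht hst
          refine (hue s hs t ht ?_).le
          rw [Real.dist_eq]
          linarith [min_le_left (e / 4) (δ / (32 * (P ^ 2 + 1))),
            min_le_right (1 / 10 : ℝ) (min (e / 4) (δ / (32 * (P ^ 2 + 1))))]
        · intro x hx y hy
          have hz := hT.norm_le x hx y hy
          split_ifs with h
          · have h1 : ρ i x y ≤ η := by
              rcases h with rfl | ⟨_, _, h⟩
              · simp [ρ, hT.diag x hx, hη.le]
              · exact h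
            rw [cxKer, ← Complex.one_re, ← Complex.sub_re]
            exact (Complex.abs_re_le_norm _).trans
              ((norm_cesaro_sub_one_le hz i).trans (mul_le_mul_of_nonneg_left h1 zero_le_two))
          · have h1 : η⁻¹ ≤ ρ i x y :=
              (hg x hx y hy).resolve_left fun h' => h (.inr ⟨hx, hy, h'⟩)
            rw [sub_zero]
            refine (Complex.abs_re_le_norm _).trans ?_
            have h2 : η⁻¹ * ‖cesaro i (T x y)‖ ≤ 2 :=
              (mul_le_mul_of_nonneg_right h1 (norm_nonneg _)).trans (norm_cesaro_mul_le hz i)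
            rw [inv_mul_le_iff₀ hη] at h2
            linarith
        · have e1 : 2 * P * (δ / (32 * (P + 1))) ≤ δ / 16 := by
            calc 2 * P * (δ / (32 * (P + 1))) ≤ 2 * (P + 1) * (δ / (32 * (P + 1))) := by
                  gcongr; linarith
              _ = δ / 16 := by field_simp; ring
          have e2 : P ^ 2 * (2 * η) ≤ δ / 16 := by
            calc P ^ 2 * (2 * η) ≤ (P ^ 2 + 1) * (2 * (δ / (32 * (P ^ 2 + 1)))) := by
                  gcongr
                  · linarith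
                  · exact (min_le_right _ _).trans (min_le_right _ _)
              _ = δ / 16 := by field_simp; ring
          linarith
      obtain ⟨e11, e12⟩ := qform_equiv p hp _ hr hF hF' hN
      obtain ⟨e22, -⟩ := qform_equiv p hp _ hr hF' hF hN
      have a11 := abs_le.1 (hnear F F hFS hFS)
      have a12 := abs_le.1 (hnear F F' hFS hF'S)
      have a22 := abs_le.1 (hnear F' F' hF'S hF'S)
      have hcard : ((F ∆ F').card : ℝ) + 2 * (F ∩ F').card = 2 * N := by
        have h1 := card_sdiff_add_card_inter F F'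
        have h2 := card_sdiff_add_card_inter F' F
        rw [inter_comm F' F] at h2
        have h3 : (F ∆ F').card = (F \ F').card + (F' \ F).card := by
          rw [symmDiff_def, sup_eq_union, card_union_of_disjoint disjoint_sdiff_sdiff]
        have : (F ∆ F').card + 2 * (F ∩ F').card = 2 * N := by omega
        exact_mod_cast this
      have hcard' : ((F ∆ F').card : ℝ) / N + 2 * (((F ∩ F').card : ℝ) / N) = 2 := by
        field_simp
        linarith
      refine ⟨abs_le.2 ⟨by linarith, by linarith⟩, ?_⟩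
      linarith
    · rw [if_neg hg]
      have a11 := abs_le.1 (hQb i F F hFS hFS)
      have a12 := abs_le.1 (hQb i F F' hFS hF'S)
      have a22 := abs_le.1 (hQb i F' F' hF'S hF'S)
      exact ⟨abs_le.2 ⟨by nlinarith, by nlinarith⟩, by nlinarith⟩
  have hsum : ∑ i ∈ range I, (if good i then δ / 2 else 4 * P ^ 2 + 1) ≤ I * δ := by
    rw [sum_ite, sum_const, sum_const, nsmul_eq_mul, nsmul_eq_mul]
    have h1 : (((range I).filter fun i => good i).card : ℝ) ≤ I := by
      exact_mod_cast (card_filter_le _ _).trans (card_range I).le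
    have h2 : (((range I).filter fun i => ¬ good i).card : ℝ) ≤ (m : ℝ) * m * L := by
      exact_mod_cast hbad
    nlinarith
  have hIpos : (0 : ℝ) < I := by linarith
  constructor
  · calc |cxForm p I T F F - 1| = |(I : ℝ)⁻¹ * ∑ i ∈ range I, (Q i F F - 1)| := by
          rw [sum_sub_distrib, sum_const, card_range, nsmul_eq_mul, mul_one, mul_sub,
            inv_mul_cancel₀ hIpos.ne']
          rfl
      _ ≤ (I : ℝ)⁻¹ * ∑ i ∈ range I, (if good i then δ / 2 else 4 * P ^ 2 + 1) := by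
          rw [abs_mul, abs_of_pos (inv_pos.2 hIpos)]
          gcongr
          exact (abs_sum_le_sum_abs _ _).trans (sum_le_sum fun i _ => (hscale i).1)
      _ ≤ δ := by rw [inv_mul_le_iff₀ hIpos]; exact hsum
  · calc _ = (I : ℝ)⁻¹ * ∑ i ∈ range I, (Q i F F - 2 * Q i F F' + Q i F' F') := by
          simp only [cxForm, Q, sum_add_distrib, sum_sub_distrib, ← mul_sum]
          ring
      _ ≤ (I : ℝ)⁻¹ * ∑ i ∈ range I, (((F ∆ F').card : ℝ) / N +
            (if good i then δ / 2 else 4 * P ^ 2 + 1)) := by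
          exact mul_le_mul_of_nonneg_left (sum_le_sum fun i _ => (hscale i).2) (by positivity)
      _ ≤ _ := by
          rw [sum_add_distrib, sum_const, card_range, nsmul_eq_mul, mul_add,
            inv_mul_cancel_left₀ hIpos.ne']
          gcongr
          rw [inv_mul_le_iff₀ hIpos]
          exact hsum

end

end Vale.Agent.P095.Elem.Absorb
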