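import Vale.Agent.P095.Elem.Absorb.Col
import Vale.Agent.P095.Elem.Absorb.OpForm

/-!
# P095, amenable groups: the square of the column

`colSum L I S c` is the sum over the sets `σ` of leaves with `1 ≤ |σ| < 2 ^ I` of the pattern of `σ`,
the translated sources with the coefficients `c` of the scale of `|σ|`, and the common source. Its
square is the scale form of the means over the leaves, up to errors of size `η` and `4 ^ I / M`.
-/

open Finset

namespace Vale.Agent.P095.Elem.Absorb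

open VAgent.P101
open scoped CStarAlgebra

noncomputable section

section algebra

universe u v

variable {A : Type*} [CStarAlgebra A]

theorem norm_pow_le_one' {a : A} (ha : ‖a‖ ≤ 1) : ∀ j : ℕ, ‖a ^ j‖ ≤ 1
  | 0 => by simpa using norm_one_le
  | j + 1 => by
    rw [pow_succ]
    exact (norm_mul_le _ _).trans (mul_le_one₀ (norm_pow_le_one' ha j) (norm_nonneg _) ha)

theorem norm_pow_comm_le {a Q : A} (ha : ‖a‖ ≤ 1) :
    ∀ j : ℕ, ‖Q * a ^ j - a ^ j * Q‖ ≤ j * ‖Q * a - a * Q‖
  | 0 => by simp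
  | j + 1 => by
    have e : Q * a ^ (j + 1) - a ^ (j + 1) * Q =
        (Q * a ^ j - a ^ j * Q) * a + a ^ j * (Q * a - a * Q) := by
      rw [pow_succ]; noncomm_ring
    rw [e]
    refine (norm_add_le _ _).trans ?_
    have h1 : ‖(Q * a ^ j - a ^ j * Q) * a‖ ≤ j * ‖Q * a - a * Q‖ :=
      (norm_mul_le _ _).trans ((mul_le_of_le_one_right (norm_nonneg _) ha).trans (norm_pow_comm_le ha j))
    have h2 : ‖a ^ j * (Q * a - a * Q)‖ ≤ ‖Q * a - a * Q‖ :=
      (norm_mul_le _ _).trans (mul_le_of_le_one_left (norm_nonneg _) (norm_pow_le_one' ha j))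
    push_cast
    linarith

theorem exists_aeval_bound (p : Polynomial ℝ) :
    ∃ B : ℝ, 0 ≤ B ∧ ∀ {A : Type u} [CStarAlgebra A] (a : A), ‖a‖ ≤ 1 →
      ‖Polynomial.aeval a p‖ ≤ B ∧
      ∀ Q : A, ‖Q * Polynomial.aeval a p - Polynomial.aeval a p * Q‖ ≤ B * ‖Q * a - a * Q‖ := by
  induction p using Polynomial.induction_on' with
  | add p q hp hq =>
    obtain ⟨B, hB, hp⟩ := hp
    obtain ⟨B', hB', hq⟩ := hq
    refine ⟨B + B', add_nonneg hB hB', fun {A} _ a ha => ?_⟩
    obtain ⟨p1, p2⟩ := hp a ha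
    obtain ⟨q1, q2⟩ := hq a ha
    refine ⟨(by rw [map_add]; exact (norm_add_le _ _).trans (add_le_add p1 q1)), fun Q => ?_⟩
    rw [map_add, mul_add, add_mul, add_sub_add_comm, add_mul B B' ‖Q * a - a * Q‖]
    exact (norm_add_le _ _).trans (add_le_add (p2 Q) (q2 Q))
  | monomial n r =>
    refine ⟨|r| * (n + 1), by positivity, fun {A} _ a ha => ?_⟩
    rw [Polynomial.aeval_monomial, ← Algebra.smul_def]
    refine ⟨?_, fun Q => ?_⟩
    · rw [norm_smul, Real.norm_eq_abs]
      exact mul_le_mul_of_nonneg_left ((norm_pow_le_one' ha n).trans (by simp)) (abs_nonneg r)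
    · rw [mul_smul_comm, smul_mul_assoc, ← smul_sub, norm_smul, Real.norm_eq_abs, mul_assoc]
      refine mul_le_mul_of_nonneg_left ((norm_pow_comm_le ha n).trans ?_) (abs_nonneg r)
      exact mul_le_mul_of_nonneg_right (by linarith) (norm_nonneg _)

theorem norm_cesaro_le {a : A} (ha : ‖a‖ ≤ 1) (i : ℕ) : ‖cesaro i a‖ ≤ 1 := by
  rw [cesaro, norm_smul, Real.norm_of_nonneg (by positivity), inv_mul_le_iff₀ (by positivity),
    mul_one]
  refine (norm_sum_le _ _).trans ((sum_le_card_nsmul _ _ 1 fun j _ => norm_pow_le_one' ha j).trans_eq ?_)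
  rw [card_window, nsmul_eq_mul]
  simp

theorem norm_cesaro_comm_le {a Q : A} (ha : ‖a‖ ≤ 1) (i : ℕ) :
    ‖Q * cesaro i a - cesaro i a * Q‖ ≤ 2 ^ (i + 1) * ‖Q * a - a * Q‖ := by
  rw [cesaro, mul_smul_comm, smul_mul_assoc, ← smul_sub, mul_sum, sum_mul, ← sum_sub_distrib,
    norm_smul, Real.norm_of_nonneg (by positivity), inv_mul_le_iff₀ (by positivity)]
  refine (norm_sum_le _ _).trans ((sum_le_card_nsmul _ _ (2 ^ (i + 1) * ‖Q * a - a * Q‖)
    fun j hj => (norm_pow_comm_le ha j).trans ?_).trans_eq ?_)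
  · exact mul_le_mul_of_nonneg_right (by exact_mod_cast (mem_Ico.1 hj).2.le) (norm_nonneg _)
  · rw [card_window, nsmul_eq_mul]
    push_cast
    ring

/-- Norm bound and commutator bound for the weights. -/
theorem exists_opU_bound (p : Polynomial ℝ) (I : ℕ) :
    ∃ B : ℝ, 0 ≤ B ∧ ∀ {A : Type u} [CStarAlgebra A] {β : Type v} (T : β → β → A) (Fn : Finset β)
      (x : β), (∀ y ∈ Fn, ‖T x y‖ ≤ 1 ∧ ‖T y x‖ ≤ 1 ∧ star (T x y) = T y x) → ∀ i < I,
      ‖opU p i T Fn x‖ ≤ (Fn.card : ℝ)⁻¹ * B ∧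
      ∀ (Q : A) (e : ℝ), 0 ≤ e →
        (∀ y ∈ Fn, ‖Q * T x y - T x y * Q‖ ≤ e ∧ ‖Q * T y x - T y x * Q‖ ≤ e) →
        ‖Q * opU p i T Fn x - opU p i T Fn x * Q‖ ≤ (Fn.card : ℝ)⁻¹ * (B * e) := by
  obtain ⟨B, hB, hp⟩ := exists_aeval_bound.{u} p
  have h2I : (1 : ℝ) ≤ 2 ^ I := one_le_pow₀ one_le_two
  refine ⟨B * 2 ^ I, by positivity, fun {A} _ {β} T Fn x hT i hi => ?_⟩
  have hsym : ∀ y ∈ Fn, ‖symPart (cesaro i (T x y))‖ ≤ 1 := fun y hy => by
    rw [symPart, norm_smul, Real.norm_of_nonneg (by norm_num)]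
    linarith [norm_add_le (cesaro i (T x y)) (star (cesaro i (T x y))),
      norm_cesaro_le (hT y hy).1 i, norm_star (cesaro i (T x y))]
  have hdeg : ‖opDeg i T Fn x‖ ≤ 1 := by
    rw [opDeg, norm_smul, Real.norm_of_nonneg (by positivity)]
    rcases Fn.eq_empty_or_nonempty with rfl | hne
    · simp
    · rw [inv_mul_le_iff₀ (by exact_mod_cast hne.card_pos), mul_one]
      exact (norm_sum_le _ _).trans ((sum_le_card_nsmul _ _ 1 hsym).trans_eq (by simp))
  obtain ⟨b1, b2⟩ := hp (opDeg i T Fn x) hdeg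
  refine ⟨?_, fun Q e he hQ => ?_⟩
  · rw [opU, norm_smul, Real.norm_of_nonneg (by positivity)]
    exact mul_le_mul_of_nonneg_left (b1.trans (le_mul_of_one_le_right hB h2I)) (by positivity)
  · rw [opU, mul_smul_comm, smul_mul_assoc, ← smul_sub, norm_smul,
      Real.norm_of_nonneg (by positivity)]
    refine mul_le_mul_of_nonneg_left ((b2 Q).trans ?_) (by positivity)
    rw [mul_assoc]
    refine mul_le_mul_of_nonneg_left ?_ hB
    have hpw : (2 : ℝ) ^ (i + 1) ≤ 2 ^ I := pow_le_pow_right₀ one_le_two hi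
    have hone : ∀ y ∈ Fn, ‖Q * symPart (cesaro i (T x y)) - symPart (cesaro i (T x y)) * Q‖ ≤
        2 ^ I * e := fun y hy => by
      have h1 := norm_cesaro_comm_le (Q := Q) (hT y hy).1 i
      have h2 := norm_cesaro_comm_le (Q := Q) (hT y hy).2.1 i
      have es : star (cesaro i (T x y)) = cesaro i (T y x) := by
        simp only [cesaro, star_smul, star_trivial, star_sum, star_pow, (hT y hy).2.2]
      rw [symPart, es, mul_smul_comm, smul_mul_assoc, ← smul_sub, norm_smul,
        Real.norm_of_nonneg (by norm_num), mul_add, add_mul, add_sub_add_comm]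
      have h3 : ∀ {r : ℝ}, r ≤ e → (2 : ℝ) ^ (i + 1) * r ≤ 2 ^ I * e := fun {r} hr =>
        (mul_le_mul_of_nonneg_left hr (by positivity)).trans (mul_le_mul_of_nonneg_right hpw he)
      linarith [norm_add_le (Q * cesaro i (T x y) - cesaro i (T x y) * Q)
        (Q * cesaro i (T y x) - cesaro i (T y x) * Q), h3 (hQ y hy).1, h3 (hQ y hy).2]
    rw [opDeg, mul_smul_comm, smul_mul_assoc, ← smul_sub, mul_sum, sum_mul, ← sum_sub_distrib,
      norm_smul, Real.norm_of_nonneg (by positivity)]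
    rcases Fn.eq_empty_or_nonempty with rfl | hne
    · simp only [card_empty, Nat.cast_zero, inv_zero, zero_mul]
      positivity
    · rw [inv_mul_le_iff₀ (by exact_mod_cast hne.card_pos)]
      exact (norm_sum_le _ _).trans ((sum_le_card_nsmul _ _ _ hone).trans_eq (by rw [nsmul_eq_mul]))

end algebra

theorem log_of_mem_window {i j : ℕ} (hj : j ∈ Ico (2 ^ i) (2 ^ (i + 1))) : Nat.log 2 j = i :=
  Nat.log_eq_of_pow_le_of_lt_pow (mem_Ico.1 hj).1 (mem_Ico.1 hj).2

theorem sum_windows {E : Type*} [AddCommMonoid E] (f : ℕ → E) : ∀ I : ℕ,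
    ∑ j ∈ Ico 1 (2 ^ I), f j = ∑ i ∈ range I, ∑ j ∈ Ico (2 ^ i) (2 ^ (i + 1)), f j
  | 0 => by simp
  | I + 1 => by
    rw [sum_range_succ, ← sum_windows f I,
      sum_Ico_consecutive f (Nat.one_le_two_pow) (Nat.pow_le_pow_right two_pos (Nat.le_succ I))]

variable {F : Type*} [CStarAlgebra F] {G : Type*} [Group G] {β : G →* (F ≃⋆ₐ[ℂ] F)}
  {W : Finset G} {M : ℕ} {η : ℝ}

/-- The sets of leaves in use. -/
def used (M I : ℕ) : Finset (Finset (Fin M)) :=
  (Finset.univ : Finset (Fin M)).powerset.filter fun σ => σ.card ∈ Ico 1 (2 ^ I)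

theorem mem_used {I : ℕ} {σ : Finset (Fin M)} : σ ∈ used M I ↔ 1 ≤ σ.card ∧ σ.card < 2 ^ I := by
  simp [used]

/-- The normalising coefficient of a set of leaves. -/
def coef (I : ℕ) (σ : Finset (Fin M)) : ℝ :=
  Real.sqrt ((I : ℝ) * 2 ^ Nat.log 2 σ.card * M.choose σ.card)⁻¹

theorem sum_coef_sq {E : Type*} [AddCommGroup E] [Module ℝ E] (I : ℕ) (H : Finset (Fin M) → E) :
    ∑ σ ∈ used M I, (coef I σ * coef I σ) • H σ =
      (I : ℝ)⁻¹ • ∑ i ∈ range I, ((2 : ℝ) ^ i)⁻¹ • ∑ j ∈ Ico (2 ^ i) (2 ^ (i + 1)),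
        ((M.choose j : ℝ)⁻¹ • ∑ σ ∈ (Finset.univ : Finset (Fin M)).powersetCard j, H σ) := by
  rw [← sum_fiberwise_of_maps_to (s := used M I) (g := Finset.card) (t := Ico 1 (2 ^ I))
    (fun σ hσ => (mem_filter.1 hσ).2), sum_windows, smul_sum]
  refine sum_congr rfl fun i _ => ?_
  rw [smul_sum, smul_sum]
  refine sum_congr rfl fun j hj => ?_
  rw [smul_sum, smul_sum, smul_sum]
  refine sum_congr ?_ fun σ hσ => ?_
  · ext σ
    simp only [mem_filter, mem_used, mem_powersetCard, subset_univ, true_and]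
    refine ⟨fun h => h.2, fun h => ⟨?_, h⟩⟩
    rw [h]
    exact ⟨Nat.one_le_two_pow.trans (mem_Ico.1 hj).1, (mem_Ico.1 hj).2.trans_le
      (Nat.pow_le_pow_right two_pos (mem_range.1 ‹i ∈ range I›))⟩
  · rw [coef, (mem_powersetCard.1 hσ).2, log_of_mem_window hj, Real.mul_self_sqrt (by positivity),
      smul_smul, smul_smul, mul_inv, mul_inv]

theorem sum_coef_sq_le (M I : ℕ) : ∑ σ ∈ used M I, coef I σ * coef I σ ≤ 1 := by
  have h := sum_coef_sq (M := M) I (fun _ => (1 : ℝ))
  simp only [smul_eq_mul, mul_one, sum_const, nsmul_eq_mul, card_powersetCard, card_univ,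
    Fintype.card_fin] at h
  rw [h]
  have hin : ∀ i ∈ range I, ((2 : ℝ) ^ i)⁻¹ *
      ∑ j ∈ Ico (2 ^ i) (2 ^ (i + 1)), (M.choose j : ℝ)⁻¹ * M.choose j ≤ 1 := fun i _ => by
    rw [inv_mul_le_iff₀ (by positivity), mul_one]
    refine (sum_le_card_nsmul _ _ 1 fun j _ => ?_).trans_eq ?_
    · rcases Nat.eq_zero_or_pos (M.choose j) with h0 | h0
      · simp [h0]
      · rw [inv_mul_cancel₀ (by exact_mod_cast h0.ne')]
    · rw [card_window, nsmul_eq_mul]
      simp
  rcases Nat.eq_zero_or_pos I with rfl | hI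
  · simp
  · rw [inv_mul_le_iff₀ (by exact_mod_cast hI), mul_one]
    exact (sum_le_card_nsmul _ _ 1 hin).trans_eq (by simp)

theorem coef_le_one (I : ℕ) (σ : Finset (Fin M)) : coef I σ ≤ 1 := by
  rw [coef, Real.sqrt_le_one]
  rcases Nat.eq_zero_or_pos I with rfl | hI
  · simp
  rcases Nat.eq_zero_or_pos (M.choose σ.card) with h0 | h0
  · simp [h0]
  refine inv_le_one_of_one_le₀ ?_
  have : 1 ≤ I * 2 ^ Nat.log 2 σ.card * M.choose σ.card :=
    Nat.one_le_iff_ne_zero.2 (by positivity)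
  exact_mod_cast this

variable (L : Leaves β W M η) (I : ℕ) (S : Finset G)

/-- The translated sources of a set of leaves with the coefficients of its scale. -/
def col (c : ℕ → G → F) (σ : Finset (Fin M)) : F :=
  ∑ x ∈ S, subProd σ (L.tg x) * c (Nat.log 2 σ.card) x

/-- The column. -/
def colSum (c : ℕ → G → F) : F :=
  ∑ σ ∈ used M I, coef I σ • (L.pat σ * col L S c σ * L.top)

/-- The scale form of general coefficients. -/
def genForm (c : ℕ → G → F) : F :=
  (I : ℝ)⁻¹ • ∑ i ∈ range I, ∑ x ∈ S, ∑ y ∈ S, star (c i x) * cesaro i (L.Tbar x y) * c i y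

theorem star_col_mul_col (c : ℕ → G → F) (σ : Finset (Fin M)) :
    star (col L S c σ) * col L S c σ = ∑ x ∈ S, ∑ y ∈ S,
      star (c (Nat.log 2 σ.card) x) * subProd σ (L.Tgh x y) * c (Nat.log 2 σ.card) y := by
  simp only [col, star_sum, sum_mul, mul_sum, star_mul]
  rw [sum_comm]
  refine sum_congr rfl fun x _ => sum_congr rfl fun y _ => ?_
  have e : star (subProd σ (L.tg x)) * subProd σ (L.tg y) = subProd σ (L.Tgh x y) := by
    unfold subProd
    rw [oprodF_star, oprodF_mul]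
    · refine oprodF_congr fun l => ?_
      split_ifs <;> simp [Leaves.Tgh]
    · intro k k' hkk
      split_ifs <;> first
        | exact Commute.one_left _
        | (rw [star_one]; exact Commute.one_right _)
        | exact (L.commute_tg hkk y x).2
    · intro k k' hkk
      split_ifs <;> first
        | exact Commute.one_left _
        | exact Commute.one_right _
        | exact (L.commute_tg hkk x x).1
  rw [← e]
  simp only [mul_assoc]

theorem star_colSum_mul (c : ℕ → G → F) : star (colSum L I S c) * colSum L I S c =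
    ∑ σ ∈ used M I, (coef I σ * coef I σ) •
      (star (L.pat σ * col L S c σ * L.top) * (L.pat σ * col L S c σ * L.top)) := by
  rw [colSum, star_sum, sum_mul]
  refine sum_congr rfl fun σ hσ => ?_
  rw [mul_sum, sum_eq_single σ (fun σ' _ hne => ?_) (fun h => absurd hσ h)]
  · rw [star_smul, star_trivial, smul_mul_smul_comm]
  · rw [star_smul, smul_mul_smul_comm, star_mul, star_mul, L.star_pat]
    have e : star L.top * (star (col L S c σ) * L.pat σ) * (L.pat σ' * col L S c σ' * L.top) =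
        star L.top * star (col L S c σ) * (L.pat σ * L.pat σ') * (col L S c σ' * L.top) := by
      simp only [mul_assoc]
    rw [e, L.pat_mul_pat (Ne.symm hne), mul_zero, zero_mul, smul_zero]

variable {L I S} in
theorem colSum_mul_self (c : ℕ → G → F) : colSum L I S c * colSum L I S c = 0 := by
  rw [colSum, sum_mul]
  refine sum_eq_zero fun σ _ => ?_
  rw [mul_sum]
  refine sum_eq_zero fun σ' hσ' => ?_
  have e : L.pat σ * col L S c σ * L.top * (L.pat σ' * col L S c σ' * L.top) =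
      L.pat σ * col L S c σ * (L.top * L.pat σ') * (col L S c σ' * L.top) := by
    simp only [mul_assoc]
  rw [smul_mul_smul_comm, e, L.top_mul_pat (card_pos.1 (mem_used.1 hσ').1), mul_zero, zero_mul,
    smul_zero]

variable {L I S} in
theorem mul_colSum_eq (c : ℕ → G → F) {P : F}
    (hP : ∀ σ : Finset (Fin M), σ.Nonempty → P * L.pat σ = L.pat σ) :
    P * colSum L I S c = colSum L I S c := by
  rw [colSum, mul_sum]
  refine sum_congr rfl fun σ hσ => ?_
  rw [mul_smul_comm, ← mul_assoc, ← mul_assoc, hP σ (card_pos.1 (mem_used.1 hσ).1)]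

variable {L I S}

theorem norm_col_le {c : ℕ → G → F} {B : ℝ} (hB : ∀ i < I, ∀ x ∈ S, ‖c i x‖ ≤ B)
    {σ : Finset (Fin M)} (hσ : σ ∈ used M I) : ‖col L S c σ‖ ≤ S.card * B := by
  refine (norm_sum_le _ _).trans ((sum_le_card_nsmul _ _ B fun x hx => ?_).trans_eq (by simp))
  refine (norm_mul_le _ _).trans ((mul_le_of_le_one_left (norm_nonneg _)
    (norm_subProd_le σ _ (L.norm_tg_le x) norm_one_le)).trans (hB _ ?_ x hx))
  exact Nat.log_lt_of_lt_pow (Nat.one_le_iff_ne_zero.1 (mem_used.1 hσ).1) (mem_used.1 hσ).2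

/-- The square of the column is the scale form, compressed to the source. -/
theorem norm_colSum_sq_sub_le (hη : 0 ≤ η) (hS : S ⊆ W) (hIM : 2 ^ I ≤ M) {c : ℕ → G → F}
    {B E : ℝ} (hB0 : 0 ≤ B) (hB : ∀ i < I, ∀ x ∈ S, ‖c i x‖ ≤ B)
    (hE : ∀ i < I, ∀ x ∈ S, ∀ σ : Finset (Fin M), ‖L.qpat σ * c i x - c i x * L.qpat σ‖ ≤ E) :
    ‖star (colSum L I S c) * colSum L I S c - L.top * genForm L I S c * L.top‖ ≤
      2 * (S.card * B) * (S.card * (2 ^ I * η * B + |E|)) +
        (S.card * B) ^ 2 * (((2 : ℝ) ^ I) ^ 2 / M) := by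
  set D : ℝ := S.card * (2 ^ I * η * B + |E|)
  set Y := fun σ => col L S c σ * L.top
  set X := fun σ => L.pat σ * col L S c σ * L.top
  have hlog : ∀ σ ∈ used M I, Nat.log 2 σ.card < I := fun σ hσ =>
    Nat.log_lt_of_lt_pow (Nat.one_le_iff_ne_zero.1 (mem_used.1 hσ).1) (mem_used.1 hσ).2
  have hXY : ∀ σ ∈ used M I, ‖X σ - Y σ‖ ≤ D := by
    intro σ hσ
    have e : X σ - Y σ = ∑ x ∈ S, (L.pat σ * subProd σ (L.tg x) * c (Nat.log 2 σ.card) x * L.top -
        subProd σ (L.tg x) * c (Nat.log 2 σ.card) x * L.top) := by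
      simp only [X, Y, col, mul_sum, sum_mul, sum_sub_distrib, mul_assoc]
    rw [e]
    refine (norm_sum_le _ _).trans ((sum_le_card_nsmul _ _ (2 ^ I * η * B + |E|) fun x hx => ?_).trans_eq
      (by simp only [D, nsmul_eq_mul]))
    set u := c (Nat.log 2 σ.card) x with hu
    set P := subProd σ (L.tg x)
    set Q := L.qpat σ
    set e' := subProd σ L.e
    have h1 : L.pat σ * P * u * L.top = e' * P * (Q * u) * L.top := by
      rw [L.pat_eq, mul_assoc e', (L.commute_qpat_subProd σ x).eq]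
      simp only [mul_assoc, Q, P, e']
    have h2 : e' * P * (Q * u) * L.top - P * u * L.top =
        e' * P * (Q * u - u * Q) * L.top + (e' * P - P) * u * L.top := by
      have hQ : Q * L.top = L.top := L.qpat_mul_top σ
      rw [mul_sub, sub_mul, sub_mul, sub_mul]
      simp only [mul_assoc, hQ]
      abel
    rw [h1, h2]
    have he : ‖e'‖ ≤ 1 := norm_subProd_le _ _ (fun l => (L.pos l).2.2.1.2) norm_one_le
    have hP : ‖P‖ ≤ 1 := norm_subProd_le _ _ (L.norm_tg_le x) norm_one_le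
    refine (norm_add_le _ _).trans ?_
    have a1 : ‖e' * P * (Q * u - u * Q) * L.top‖ ≤ |E| :=
      (norm_mul_le _ _).trans ((mul_le_of_le_one_right (norm_nonneg _) L.norm_top_le).trans
        ((norm_mul_le _ _).trans ((mul_le_of_le_one_left (norm_nonneg _) ((norm_mul_le _ _).trans
          (mul_le_one₀ he (norm_nonneg _) hP))).trans
            ((hE _ (hlog σ hσ) x hx σ).trans (le_abs_self E)))))
    have a2 : ‖(e' * P - P) * u * L.top‖ ≤ 2 ^ I * η * B := by
      refine (norm_mul_le _ _).trans ((mul_le_of_le_one_right (norm_nonneg _) L.norm_top_le).trans ?_)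
      refine (norm_mul_le _ _).trans (mul_le_mul ?_ (hB _ (hlog σ hσ) x hx) (norm_nonneg _) (by positivity))
      refine (L.norm_epat_tg_sub_le σ (hS hx)).trans (mul_le_mul_of_nonneg_right ?_ hη)
      exact_mod_cast (mem_used.1 hσ).2.le
    linarith
  have hX : ∀ σ ∈ used M I, ‖X σ‖ ≤ S.card * B := fun σ hσ =>
    (norm_mul_le _ _).trans ((mul_le_of_le_one_right (norm_nonneg _) L.norm_top_le).trans
      ((norm_mul_le _ _).trans ((mul_le_of_le_one_left (norm_nonneg _) (L.norm_pat_le σ)).trans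
        (norm_col_le hB hσ))))
  have hY : ∀ σ ∈ used M I, ‖Y σ‖ ≤ S.card * B := fun σ hσ =>
    (norm_mul_le _ _).trans ((mul_le_of_le_one_right (norm_nonneg _) L.norm_top_le).trans
      (norm_col_le hB hσ))
  have hD0 : 0 ≤ D := by positivity
  have h1 : ‖star (colSum L I S c) * colSum L I S c -
      ∑ σ ∈ used M I, (coef I σ * coef I σ) • (star (Y σ) * Y σ)‖ ≤ 2 * (S.card * B) * D := by
    rw [star_colSum_mul, ← sum_sub_distrib]
    simp only [← smul_sub]
    refine (norm_sum_le _ _).trans ((sum_le_sum (g := fun σ =>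
      coef I σ * coef I σ * (2 * (S.card * B) * D)) fun σ hσ => ?_).trans ?_)
    · rw [norm_smul, Real.norm_of_nonneg (mul_self_nonneg _)]
      refine mul_le_mul_of_nonneg_left ?_ (mul_self_nonneg _)
      rw [show star (X σ) * X σ - star (Y σ) * Y σ =
        star (X σ - Y σ) * X σ + star (Y σ) * (X σ - Y σ) by rw [star_sub]; noncomm_ring]
      refine (norm_add_le _ _).trans ?_
      have a1 : ‖star (X σ - Y σ) * X σ‖ ≤ D * (S.card * B) := (norm_mul_le _ _).trans
        (mul_le_mul (by rw [norm_star]; exact hXY σ hσ) (hX σ hσ) (norm_nonneg _) hD0)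
      have a2 : ‖star (Y σ) * (X σ - Y σ)‖ ≤ S.card * B * D := (norm_mul_le _ _).trans
        (mul_le_mul (by rw [norm_star]; exact hY σ hσ) (hXY σ hσ) (norm_nonneg _) (by positivity))
      linarith
    · rw [← sum_mul]
      exact mul_le_of_le_one_left (by positivity) (sum_coef_sq_le M I)
  set Z := (I : ℝ)⁻¹ • ∑ i ∈ range I, ∑ x ∈ S, ∑ y ∈ S, star (c i x) *
    (((2 : ℝ) ^ i)⁻¹ • ∑ j ∈ Ico (2 ^ i) (2 ^ (i + 1)), symMean (L.Tgh x y) j) * c i y
  have h2 : ∑ σ ∈ used M I, (coef I σ * coef I σ) • (star (Y σ) * Y σ) = L.top * Z * L.top := by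
    have e : ∀ σ, (coef I σ * coef I σ) • (star (Y σ) * Y σ) = L.top *
        ((coef I σ * coef I σ) • (star (col L S c σ) * col L S c σ)) * L.top := fun σ => by
      simp only [Y, star_mul, L.star_top, mul_smul_comm, smul_mul_assoc, mul_assoc]
    rw [sum_congr rfl fun σ _ => e σ, ← sum_mul, ← mul_sum, sum_coef_sq]
    congr 2
    simp only [Z]
    congr 1
    refine sum_congr rfl fun i _ => ?_
    simp only [mul_smul_comm, smul_mul_assoc, mul_sum, sum_mul, ← smul_sum, symMean]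
    congr 1
    rw [sum_congr rfl fun (j : ℕ) (hj : j ∈ Ico (2 ^ i) (2 ^ (i + 1))) =>
      congrArg ((M.choose j : ℝ)⁻¹ • ·) (sum_congr rfl fun σ hσ => by
        rw [star_col_mul_col, (mem_powersetCard.1 hσ).2, log_of_mem_window hj])]
    simp only [smul_sum]
    rw [sum_congr rfl fun j _ => sum_comm, sum_comm]
    refine sum_congr rfl fun x _ => ?_
    rw [sum_congr rfl fun j _ => sum_comm, sum_comm]
  have h3 : ‖Z - genForm L I S c‖ ≤ (S.card * B) ^ 2 * (((2 : ℝ) ^ I) ^ 2 / M) := by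
    simp only [Z, genForm, ← smul_sub, ← sum_sub_distrib, ← sub_mul, ← mul_sub, cesaro]
    rw [norm_smul, Real.norm_of_nonneg (by positivity)]
    rcases Nat.eq_zero_or_pos I with rfl | hI
    · simp only [Nat.cast_zero, inv_zero, zero_mul]
      positivity
    rw [inv_mul_le_iff₀ (by exact_mod_cast hI)]
    refine (norm_sum_le _ _).trans ((sum_le_card_nsmul _ _
      ((S.card * B) ^ 2 * (((2 : ℝ) ^ I) ^ 2 / M)) fun i hi => ?_).trans_eq (by simp))
    refine (norm_sum_le _ _).trans ((sum_le_card_nsmul _ _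
      (S.card * (B * (((2 : ℝ) ^ I) ^ 2 / M) * B)) fun x hx => ?_).trans_eq
      (by rw [nsmul_eq_mul]; ring))
    refine (norm_sum_le _ _).trans ((sum_le_card_nsmul _ _
      (B * (((2 : ℝ) ^ I) ^ 2 / M) * B) fun y hy => ?_).trans_eq (by rw [nsmul_eq_mul]))
    have hi' := mem_range.1 hi
    refine (norm_mul_le _ _).trans (mul_le_mul ?_ (hB i hi' y hy) (norm_nonneg _) (by positivity))
    refine (norm_mul_le _ _).trans (mul_le_mul (by rw [norm_star]; exact hB i hi' x hx) ?_
      (norm_nonneg _) hB0)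
    rw [norm_smul, Real.norm_of_nonneg (by positivity), inv_mul_le_iff₀ (by positivity)]
    refine (norm_sum_le _ _).trans ((sum_le_card_nsmul _ _ (((2 : ℝ) ^ I) ^ 2 / M)
      fun j hj => ?_).trans_eq (by rw [card_window, nsmul_eq_mul]; push_cast; ring))
    have hj2 : j ≤ 2 ^ I := (mem_Ico.1 hj).2.le.trans (Nat.pow_le_pow_right two_pos hi')
    refine (norm_symMean_sub_pow_le _ (L.commute_Tgh x y) (L.norm_Tgh_le x y) (hj2.trans hIM)).trans ?_
    gcongr
    exact_mod_cast hj2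
  calc ‖star (colSum L I S c) * colSum L I S c - L.top * genForm L I S c * L.top‖
      = ‖(star (colSum L I S c) * colSum L I S c -
          ∑ σ ∈ used M I, (coef I σ * coef I σ) • (star (Y σ) * Y σ)) +
          L.top * (Z - genForm L I S c) * L.top‖ := by
        congr 1; rw [h2, mul_sub, sub_mul]; abel
    _ ≤ _ := by
        refine (norm_add_le _ _).trans (add_le_add h1 ?_)
        refine (norm_mul_le _ _).trans ((mul_le_of_le_one_right (norm_nonneg _) L.norm_top_le).trans ?_)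
        exact ((norm_mul_le _ _).trans (mul_le_of_le_one_left (norm_nonneg _) L.norm_top_le)).trans h3

end

end Vale.Agent.P095.Elem.Absorb
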