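import Vale.Agent.P095.Elem.Absorb.Prod

/-!
# P095, elementary amenable groups: symmetric means of commuting contractions, Toeplitz positivity

The mean of the products over `j` element subsets is `(mean)^j` up to `j ^ 2 / M`, and the Fejér
sums of the powers of any contraction are bounded below.
-/

namespace Vale.Agent.P095.Elem

open VAgent.P101
open scoped CStarAlgebra

noncomputable section

variable {F : Type*} [CStarAlgebra F]

/-- The mean of the products over the subsets with `j` elements. -/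
def symMean {M : ℕ} (f : Fin M → F) (j : ℕ) : F :=
  ((M.choose j : ℝ))⁻¹ • ∑ σ ∈ (Finset.univ : Finset (Fin M)).powersetCard j, subProd σ f

/-- The mean. -/
def famMean {M : ℕ} (f : Fin M → F) : F := ((M : ℝ))⁻¹ • ∑ l, f l

theorem norm_one_le : ‖(1 : F)‖ ≤ 1 := by
  rcases subsingleton_or_nontrivial F with hF | hF
  · simp [Subsingleton.elim (1 : F) 0]
  · exact le_of_eq CStarRing.norm_one

theorem norm_famMean_le {M : ℕ} (f : Fin M → F) (h : ∀ l, ‖f l‖ ≤ 1) : ‖famMean f‖ ≤ 1 := by
  rw [famMean, norm_smul, Real.norm_of_nonneg (by positivity)]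
  have : ‖∑ l, f l‖ ≤ (M : ℝ) :=
    (norm_sum_le _ _).trans ((Finset.sum_le_sum fun l _ => h l).trans (by simp))
  rcases Nat.eq_zero_or_pos M with rfl | hM
  · simp
  · rw [inv_mul_le_iff₀ (by exact_mod_cast hM), mul_one]
    exact this

theorem norm_symMean_le {M : ℕ} (f : Fin M → F) (h : ∀ l, ‖f l‖ ≤ 1) (j : ℕ) :
    ‖symMean f j‖ ≤ 1 := by
  rw [symMean, norm_smul, Real.norm_of_nonneg (by positivity)]
  have hs : ‖∑ σ ∈ (Finset.univ : Finset (Fin M)).powersetCard j, subProd σ f‖ ≤
      (M.choose j : ℝ) :=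
    (norm_sum_le _ _).trans ((Finset.sum_le_sum fun σ _ => norm_subProd_le σ f h norm_one_le).trans
      (by simp [Finset.card_powersetCard]))
  rcases Nat.eq_zero_or_pos (M.choose j) with h0 | h0
  · simp [h0]
  · rw [inv_mul_le_iff₀ (by exact_mod_cast h0), mul_one]
    exact hs

theorem symMean_zero {M : ℕ} (f : Fin M → F) : symMean f 0 = 1 := by
  simp [symMean, subProd_empty]

theorem symMean_mul {M : ℕ} (f : Fin M → F) (hc : ∀ k k', Commute (f k) (f k'))
    (h : ∀ l, ‖f l‖ ≤ 1) {j : ℕ} (hj : j < M) :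
    ‖symMean f j * famMean f - symMean f (j + 1)‖ ≤ 2 * (j : ℝ) / M := by
  classical
  set U := (Finset.univ : Finset (Fin M))
  have hbij : ∑ σ ∈ U.powersetCard j, ∑ l ∈ U \ σ, subProd (insert l σ) f =
      ((j : ℝ) + 1) • ∑ τ ∈ U.powersetCard (j + 1), subProd τ f := by
    have : ∑ σ ∈ U.powersetCard j, ∑ l ∈ U \ σ, subProd (insert l σ) f =
        ∑ τ ∈ U.powersetCard (j + 1), ∑ _l ∈ τ, subProd τ f := by
      rw [Finset.sum_sigma', Finset.sum_sigma']
      refine Finset.sum_bij' (fun p _ => ⟨insert p.2 p.1, p.2⟩) (fun p _ => ⟨p.1.erase p.2, p.2⟩)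
        ?_ ?_ ?_ ?_ ?_
      · rintro ⟨σ, l⟩ hp
        simp only [Finset.mem_sigma, Finset.mem_powersetCard, Finset.mem_sdiff] at hp ⊢
        exact ⟨⟨Finset.subset_univ _, by rw [Finset.card_insert_of_notMem hp.2.2, hp.1.2]⟩,
          Finset.mem_insert_self _ _⟩
      · rintro ⟨τ, l⟩ hp
        simp only [Finset.mem_sigma, Finset.mem_powersetCard, Finset.mem_sdiff] at hp ⊢
        exact ⟨⟨Finset.subset_univ _, by rw [Finset.card_erase_of_mem hp.2, hp.1.2]; omega⟩,
          Finset.mem_univ _, Finset.notMem_erase _ _⟩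
      · rintro ⟨σ, l⟩ hp
        simp only [Finset.mem_sigma, Finset.mem_sdiff] at hp
        simp [Finset.erase_insert hp.2.2]
      · rintro ⟨τ, l⟩ hp
        simp only [Finset.mem_sigma] at hp
        simp [Finset.insert_erase hp.2]
      · rintro ⟨σ, l⟩ _
        rfl
    rw [this, Finset.smul_sum]
    refine Finset.sum_congr rfl fun τ hτ => ?_
    rw [Finset.sum_const, (Finset.mem_powersetCard.1 hτ).2, ← Nat.cast_smul_eq_nsmul ℝ,
      Nat.cast_add, Nat.cast_one]
  set R := ∑ σ ∈ U.powersetCard j, ∑ l ∈ σ, subProd σ f * f l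
  have hsplit : (∑ σ ∈ U.powersetCard j, subProd σ f) * ∑ l, f l =
      ((j : ℝ) + 1) • (∑ τ ∈ U.powersetCard (j + 1), subProd τ f) + R := by
    rw [← hbij, Finset.sum_mul, ← Finset.sum_add_distrib]
    refine Finset.sum_congr rfl fun σ _ => ?_
    rw [Finset.mul_sum, ← Finset.sum_sdiff (Finset.subset_univ σ)]
    exact congrArg (· + _) (Finset.sum_congr rfl fun l hl =>
      subProd_insert σ f (Finset.mem_sdiff.1 hl).2 hc)
  have hR : ‖R‖ ≤ (j : ℝ) * M.choose j := by
    refine (norm_sum_le _ _).trans ?_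
    have : ∀ σ ∈ U.powersetCard j, ‖∑ l ∈ σ, subProd σ f * f l‖ ≤ (j : ℝ) := fun σ hσ => by
      refine (norm_sum_le _ _).trans ((Finset.sum_le_sum fun l _ =>
        (norm_mul_le _ _).trans (mul_le_one₀ (norm_subProd_le σ f h norm_one_le) (norm_nonneg _)
          (h l))).trans ?_)
      simp [(Finset.mem_powersetCard.1 hσ).2]
    refine (Finset.sum_le_sum this).trans ?_
    simp [U, Finset.card_powersetCard, mul_comm]
  have hC : (0 : ℝ) < M.choose j := by exact_mod_cast Nat.choose_pos hj.le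
  have hC' : (0 : ℝ) < M.choose (j + 1) := by exact_mod_cast Nat.choose_pos hj
  have hM : (0 : ℝ) < M := by exact_mod_cast (show 0 < M by omega)
  have hid : ((j : ℝ) + 1) * M.choose (j + 1) = ((M : ℝ) - j) * M.choose j := by
    have := Nat.choose_succ_right_eq M j
    rw [mul_comm ((j : ℝ) + 1), mul_comm ((M : ℝ) - j), ← Nat.cast_sub hj.le]
    exact_mod_cast this
  have e : symMean f j * famMean f - symMean f (j + 1) =
      (-((j : ℝ) / M)) • symMean f (j + 1) + (((M.choose j : ℝ))⁻¹ * (M : ℝ)⁻¹) • R := by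
    have hco : ((M.choose j : ℝ))⁻¹ * (M : ℝ)⁻¹ * ((j : ℝ) + 1) =
        (1 - (j : ℝ) / M) * ((M.choose (j + 1) : ℝ))⁻¹ := by
      field_simp
      linarith
    rw [symMean, famMean, symMean, smul_mul_assoc, mul_smul_comm, smul_smul, hsplit, smul_add,
      smul_smul, hco]
    module
  rw [e]
  refine (norm_add_le _ _).trans ?_
  rw [norm_smul, norm_smul, norm_neg, Real.norm_of_nonneg (by positivity),
    Real.norm_of_nonneg (by positivity)]
  have h1 : (j : ℝ) / M * ‖symMean f (j + 1)‖ ≤ (j : ℝ) / M :=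
    mul_le_of_le_one_right (by positivity) (norm_symMean_le f h _)
  have h2 : ((M.choose j : ℝ))⁻¹ * (M : ℝ)⁻¹ * ‖R‖ ≤ (j : ℝ) / M := by
    refine (mul_le_mul_of_nonneg_left hR (by positivity)).trans_eq ?_
    field_simp
  calc _ ≤ (j : ℝ) / M + (j : ℝ) / M := add_le_add h1 h2
    _ = 2 * (j : ℝ) / M := by ring

/-- The symmetric mean is the power of the mean up to `j ^ 2 / M`. -/
theorem norm_symMean_sub_pow_le {M : ℕ} (f : Fin M → F) (hc : ∀ k k', Commute (f k) (f k'))
    (h : ∀ l, ‖f l‖ ≤ 1) : ∀ {j : ℕ}, j ≤ M →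
      ‖symMean f j - famMean f ^ j‖ ≤ (j : ℝ) ^ 2 / M
  | 0, _ => by simp [symMean_zero]
  | j + 1, hj => by
    have ih := norm_symMean_sub_pow_le f hc h (j := j) (by omega)
    have hs := symMean_mul f hc h (j := j) (by omega)
    rw [show symMean f (j + 1) - famMean f ^ (j + 1) =
      -(symMean f j * famMean f - symMean f (j + 1)) + (symMean f j - famMean f ^ j) * famMean f by
        rw [pow_succ]; noncomm_ring]
    refine (norm_add_le _ _).trans ?_
    rw [norm_neg]
    have h2 : ‖(symMean f j - famMean f ^ j) * famMean f‖ ≤ (j : ℝ) ^ 2 / M :=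
      (norm_mul_le _ _).trans ((mul_le_of_le_one_right (norm_nonneg _) (norm_famMean_le f h)).trans ih)
    refine (add_le_add hs h2).trans ?_
    rw [← add_div]
    have hle : 2 * (j : ℝ) + (j : ℝ) ^ 2 ≤ ((j + 1 : ℕ) : ℝ) ^ 2 := by push_cast; nlinarith
    exact div_le_div_of_nonneg_right hle (Nat.cast_nonneg M)

/-- The Fejér sum `∑_{1 ≤ j < N} (N - j) T ^ j`. -/
def fejer (T : F) (N : ℕ) : F := ∑ j ∈ Finset.Ico 1 N, ((N : ℝ) - j) • T ^ j

theorem fejer_succ (T : F) (N : ℕ) :
    fejer T (N + 1) = fejer T N + T * ∑ j ∈ Finset.range N, T ^ j := by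
  have e : T * ∑ j ∈ Finset.range N, T ^ j = ∑ j ∈ Finset.Ico 1 (N + 1), T ^ j := by
    rw [Finset.mul_sum, Finset.sum_Ico_eq_sum_range]
    exact Finset.sum_congr (by simp) fun j _ => by rw [add_comm, pow_succ']
  rcases Nat.eq_zero_or_pos N with rfl | hN
  · simp [fejer]
  rw [fejer, fejer, e, Finset.sum_Ico_succ_top (by omega), Finset.sum_Ico_succ_top (by omega),
    ← add_assoc, ← Finset.sum_add_distrib]
  congr 1
  · refine Finset.sum_congr rfl fun j _ => ?_
    push_cast
    module
  · push_cast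
    simp

variable [PartialOrder F] [StarOrderedRing F]

theorem star_mul_self_le_fejer {T : F} (hT : ‖T‖ ≤ 1) : ∀ N : ℕ,
    star (∑ j ∈ Finset.range N, T ^ j) * (∑ j ∈ Finset.range N, T ^ j) ≤
      (N : ℝ) • (1 : F) + fejer T N + star (fejer T N)
  | 0 => by simp [fejer]
  | N + 1 => by
    set u := ∑ j ∈ Finset.range N, T ^ j with hu
    have hsum : ∑ j ∈ Finset.range (N + 1), T ^ j = 1 + T * u := by
      rw [Finset.sum_range_succ', hu, Finset.mul_sum, pow_zero, add_comm]
      exact congrArg _ (Finset.sum_congr rfl fun j _ => (pow_succ' T j))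
    have hTT : star T * T ≤ 1 := by
      rw [← map_one (algebraMap ℝ F),
        ← CStarAlgebra.norm_le_iff_le_algebraMap _ zero_le_one (star_mul_self_nonneg T),
        CStarRing.norm_star_mul_self]
      exact mul_le_one₀ hT (norm_nonneg _) hT
    have h1 : star (T * u) * (T * u) ≤ star u * u := by
      have := star_left_conjugate_le_conjugate hTT u
      rw [mul_one] at this
      rw [star_mul]
      simpa only [mul_assoc] using this
    have ih := (star_mul_self_le_fejer hT N)
    rw [hsum, fejer_succ, ← hu, star_add (fejer T N)]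
    calc star (1 + T * u) * (1 + T * u) = 1 + T * u + star (T * u) + star (T * u) * (T * u) := by
          rw [star_add, star_one]; noncomm_ring
      _ ≤ 1 + T * u + star (T * u) + ((N : ℝ) • (1 : F) + fejer T N + star (fejer T N)) := by
          gcongr
          exact h1.trans ih
      _ = _ := by push_cast; module

/-- Toeplitz positivity. -/
theorem fejer_bound {T : F} (hT : ‖T‖ ≤ 1) (N : ℕ) :
    0 ≤ (N : ℝ) • (1 : F) + fejer T N + star (fejer T N) :=
  (star_mul_self_nonneg _).trans (star_mul_self_le_fejer hT N)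

end

end Vale.Agent.P095.Elem
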